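import Vale.Agent.P338.R2.H525.Fp.RoundW

/-!
P338, stage 3: specification of the batch multiplication. `N` products of words of `W` bits are
computed by `O(1)` large multiplications: the words are cut into `D` digits of `g` bits, the digit
vectors are transformed by chirps over `Z / q ^ 4`, the transforms are multiplied elementwise.
-/

namespace Vale.Agent.P338.R2.H784.Bp

open H778 (val bits slots)
open H525 (slotAt mulBits zeros)
open H525.Fp (tri mmN Dim)

/-! Parameters (functions of the width `W` of the words). -/

/-- Width of a digit. -/
def gB (W : ℕ) : ℕ := Nat.log 2 W + 1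
/-- Number of digits. -/
def dB (W : ℕ) : ℕ := W / gB W + 1
/-- Width of an element of the ring. -/
def bB (W : ℕ) : ℕ := 20 * gB W
/-- Padding of a word. -/
def padB (W : ℕ) : ℕ := gB W * dB W - W

/-- The parameters: a prime `q` between `2 D` and `4 D`, a principal root of unity `om` of order
`q - 1` modulo `q ^ 4`, its inverse `nu`, the inverse `iv` of `q - 1`. -/
structure Prm (W q om nu iv : ℕ) : Prop where
  hW : 1024 ≤ W
  hq : q.Prime
  hq1 : 2 * dB W < q
  hq2 : q ≤ 4 * dB W
  om_lt : om < q ^ 4
  om_pow : om ^ (q - 1) % q ^ 4 = 1
  om_ne : ∀ i, 0 < i → i < q - 1 → om ^ i % q ≠ 1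
  nu_lt : nu < q ^ 4
  om_nu : om * nu % q ^ 4 = 1
  iv_lt : iv < q ^ 4
  iv_inv : (q - 1) * iv % q ^ 4 = 1

/-! Numbers: the chirp transform of length `P` with `R` values (`r` the root, `ri` its inverse):
`X k = ∑ i < P, x i * r ^ (i * k) = r ^ tri k * ∑ i, (x i * r ^ tri (i + 1)) * ri ^ T (k - i)`. -/

/-- The exponent of the kernel. -/
def tz (P u : ℕ) : ℕ := if u + 1 ≤ P then tri (P - u) else tri (u + 1 - P)

def preN (m r x i : ℕ) : ℕ := x * (r ^ tri (i + 1) % m) % m
def kerN (P m ri u : ℕ) : ℕ := ri ^ tz P u % m
/-- The value number `k`. -/
def cztN (P m r ri : ℕ) (y : ℕ → ℕ) (k : ℕ) : ℕ :=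
  (∑ i ∈ Finset.range P, y i * kerN P m ri (k + (P - 1) - i)) * (r ^ tri k % m) % m

/-! The passes, as functions on bit lists. -/

/-- `M` digits of `g` bits are extended to `b` bits. -/
def spreadB (g b M : ℕ) (z : List Bool) : List Bool :=
  (List.range M).flatMap fun t => zeros (b - g) ++ slotAt g z t

/-- First pass of a transform: `N` vectors of length `P`. -/
def preB (b P R m r N : ℕ) (z : List Bool) : List Bool :=
  (List.range N).flatMap fun v =>
    ((List.range P).flatMap fun i => bits b (preN m r (val (slotAt b z (v * P + i))) i)) ++
      zeros ((P + R) * b)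

/-- The kernel of a transform. -/
def kerB (b P R m ri : ℕ) : List Bool := slots b (P + R) (kerN P m ri)

/-- Last pass of a transform: input of the form `mulBits n (preB ..) (kerB ..)`. -/
def postB (b P R m r N : ℕ) (z : List Bool) : List Bool :=
  (List.range N).flatMap fun v => (List.range R).flatMap fun k =>
    bits b (val (slotAt b z (v * (2 * P + R) + P + k)) * (r ^ tri k % m) % m)

/-- Merging two files of `M` elements. -/
def pairB (b M : ℕ) (x y : List Bool) : List Bool :=
  (List.range M).flatMap fun t => slotAt b x t ++ slotAt b y t

/-- Elementwise product and first pass of the inverse transform. -/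
def pre2B (b P R m r iv N : ℕ) (z : List Bool) : List Bool :=
  (List.range N).flatMap fun v =>
    ((List.range P).flatMap fun k => bits b
      (val (slotAt b z (2 * (v * P + k))) * val (slotAt b z (2 * (v * P + k) + 1)) % m *
        (iv * (r ^ tri (k + 1) % m) % m) % m)) ++ zeros ((P + R) * b)

/-- The digits number `v` of the coefficients (`J` coefficients for each word). -/
def carB (g b v J N : ℕ) (z : List Bool) : List Bool :=
  (List.range N).flatMap fun u => zeros (g * (2 - v)) ++
    ((List.range J).flatMap fun j => ((slotAt b z (u * J + j)).drop (b - g * (v + 1))).take g) ++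
    zeros (g * v)

/-- Sum of two files. -/
def addB (x y : List Bool) : List Bool := bits x.length (val x + val y)

/-- From blocks of `U + 2 * W` bits: the last `W` bits, extended to `2 * W` bits. -/
def trimB (U W N : ℕ) (z : List Bool) : List Bool :=
  (List.range N).flatMap fun v =>
    zeros W ++ (z.drop (v * (U + 2 * W) + (U + W))).take W

/-- Low halves of the products by a word. -/
def lowB (W N : ℕ) (z : List Bool) : List Bool :=
  (List.range N).flatMap fun v => zeros W ++ slotAt W z (2 * v + 2)

/-- High halves of the products by a word. -/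
def highB (W N : ℕ) (z : List Bool) : List Bool :=
  (List.range N).flatMap fun v => slotAt W z (2 * v + 1)

/-- The file of words `x 0, …, x (N - 1)`, each with `pad` zeros on the left. -/
def padW (pad W N : ℕ) (x : ℕ → ℕ) : List Bool :=
  (List.range N).flatMap fun i => zeros pad ++ bits W (x i)

/-! The batch multiplication. -/

/-- The forward transform of a file of padded words. -/
def fwdB (W q om nu n N : ℕ) (z : List Bool) : List Bool :=
  postB (bB W) (dB W) (q - 1) (q ^ 4) om N
    (mulBits n (preB (bB W) (dB W) (q - 1) (q ^ 4) om N (spreadB (gB W) (bB W)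
      (N * dB W) z)) (kerB (bB W) (dB W) (q - 1) (q ^ 4) nu))

/-- The inverse transform. -/
def invB (W q om nu iv n N : ℕ) (z : List Bool) : List Bool :=
  postB (bB W) (q - 1) (2 * dB W - 1) (q ^ 4) nu N
    (mulBits n (pre2B (bB W) (q - 1) (2 * dB W - 1) (q ^ 4) nu iv N z)
      (kerB (bB W) (q - 1) (2 * dB W - 1) (q ^ 4) om))

/-- The sum of the three files of digits. -/
def sumB (W N : ℕ) (z : List Bool) : List Bool :=
  addB (addB (carB (gB W) (bB W) 0 (2 * dB W - 1) N z)
    (carB (gB W) (bB W) 1 (2 * dB W - 1) N z)) (carB (gB W) (bB W) 2 (2 * dB W - 1) N z)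

/-- The low halves of the products of two files of padded words, each preceded by `W` zeros. -/
def prodB (W q om nu iv n N : ℕ) (x y : List Bool) : List Bool :=
  trimB (2 * padB W + gB W) W N (sumB W N (invB W q om nu iv n N
    (pairB (bB W) (N * (q - 1)) (fwdB W q om nu n N x) (fwdB W q om nu n N y))))

/-- The products modulo `p` (`μ = 2 ^ W / p + 1`). -/
def batchB (W q om nu iv n N p μ : ℕ) (x y : List Bool) : List Bool :=
  highB W N (mulBits n (lowB W N (mulBits n (prodB W q om nu iv n N x y) (bits W μ)))
    (bits W p))

/-! A round: middle and final pass in terms of the batch multiplication. -/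

/-- The slots of the first product used by the middle pass. -/
def exM (D : Dim) (z : List Bool) : List Bool :=
  (List.range D.K).flatMap fun k => (List.range D.Q).flatMap fun q =>
    (List.range D.G).flatMap fun g => (List.range (2 * D.X)).flatMap fun c =>
      (List.range D.E).flatMap fun e => slotAt D.W z (1 + D.pos1 k (D.X + q) g c e)

/-- The slots of the second product used by the final pass. -/
def exP (D : Dim) (z : List Bool) : List Bool :=
  (List.range D.K).flatMap fun k => (List.range D.X).flatMap fun y =>
    (List.range D.G).flatMap fun g => (List.range D.X).flatMap fun x =>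
      (List.range D.E).flatMap fun e => slotAt D.W z (1 + D.pos2 k (D.Q + y) g (y + x) e)

/-- Tables of the constants. -/
def tabM (D : Dim) : List Bool :=
  (List.range D.Q).flatMap fun q => (List.range (2 * D.X)).flatMap fun c => bits D.W (D.mid q c)
def tabP (D : Dim) : List Bool :=
  (List.range D.X).flatMap fun y => (List.range D.X).flatMap fun x => bits D.W (D.post x y)

/-- Every row of length `len` of the file (`rows` rows) is repeated `c` times. -/
def repB (len rows c : ℕ) (z : List Bool) : List Bool :=
  (List.range rows).flatMap fun i => (List.range c).flatMap fun _ => (z.drop (i * len)).take len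

/-- The constants of the middle and of the final pass. -/
def conM (D : Dim) : List Bool :=
  repB (D.Q * D.G * (2 * D.X) * D.E * D.W) 1 D.K
    (repB (2 * D.X * D.E * D.W) D.Q D.G (repB D.W (D.Q * (2 * D.X)) D.E (tabM D)))
def conP (D : Dim) : List Bool :=
  repB (D.X * D.G * D.X * D.E * D.W) 1 D.K
    (repB (D.X * D.E * D.W) D.X D.G (repB D.W (D.X * D.X) D.E (tabP D)))

/-- The zeros of the middle pass are inserted. -/
def fmtM (D : Dim) (t : List Bool) : List Bool :=
  (List.range D.K).flatMap fun k =>
    (t.drop (k * (D.Q * D.R * D.E * D.W))).take (D.Q * D.R * D.E * D.W) ++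
      zeros ((D.X + D.Q) * D.R * D.E * D.W)

/-- The words are shortened. -/
def fmtP (D : Dim) (t : List Bool) : List Bool :=
  (List.range (D.K * (D.X * (D.G * (D.X * D.E))))).flatMap fun i =>
    (slotAt D.W t i).drop (D.W - D.L)

/-! The batch multiplication of long files: pieces of `J` words. -/

/-- A piece of a file of words, padded. -/
def cutB (pad W i N : ℕ) (z : List Bool) : List Bool :=
  (List.range N).flatMap fun j => zeros pad ++ slotAt W z (i + j)

/-- The pieces from the word number `i` on; `T` words altogether; `f` is a bound for the number of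
pieces. -/
def longB (W q om nu iv n J p μ T : ℕ) (x y : List Bool) : ℕ → ℕ → List Bool
  | 0, _ => []
  | f + 1, i => if T ≤ i then [] else
      batchB W q om nu iv n (min J (T - i)) p μ (cutB (padB W) W i (min J (T - i)) x)
        (cutB (padB W) W i (min J (T - i)) y) ++
        longB W q om nu iv n J p μ T x y f (i + J)

/-- The number of words of a piece. -/
def jB (W n : ℕ) : ℕ := n / (400 * W)

end Vale.Agent.P338.R2.H784.Bp
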