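import Vale.Agent.P338.R2.H784.Bp.Goals
import Vale.Agent.P338.R2.H293.Bp.Batch

/-!
P338, stage 3: a piece.
-/

namespace Vale.Agent.P338.R2.H784.Bp

open Vale.Agent.P338.R2.H898
open Vale.Agent.P338.R2.H968
open Vale.Agent.P338.R2.H784
open Vale.Agent.P338.R2.H784.Fp
open Vale.Agent.P338.R2.H968.CallEnv (mem0 callC)
open Vale.Agent.P338.R2.H525 (dBits mulBits slotAt zeros)
open Vale.Agent.P338.R2.H778 (bits)
open Vale.Agent.P338.R2.H293.Bp (grp blk tf pr co)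
open Function (update)

variable {A A₀ : MTM} {Y : Type} {W n q om nu iv N : ℕ}

section sets

variable {α : Type} {B : BS α} {v : NF} {a b : Zip α}

theorem BS.get_set (hv : wk v = true) : (B.set v a).get v = a := by
  cases v <;> first | rfl | simp [wk] at hv

theorem BS.set_set : (B.set v a).set v b = B.set v b := by
  cases v <;> rfl

theorem BS.set_r : (B.set v a).r = B.r := by cases v <;> rfl

theorem BS.set_w : (B.set v a).w = B.w := by cases v <;> rfl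

theorem BS.set_t (hv : v = .x ∨ v = .y) : (B.set v a).t = B.t := by
  rcases hv with rfl | rfl <;> rfl

theorem BS.get_t (hv : v = .x ∨ v = .y) : ({ B with t := a } : BS α).get v = B.get v := by
  rcases hv with rfl | rfl <;> rfl

theorem BS.set_t_nil (hv : v = .x ∨ v = .y) (ht : B.t = ⟨[], []⟩) :
    (({ B with t := a } : BS α).set v b).set .t ⟨[], []⟩ = B.set v b := by
  obtain ⟨b1, b2, b3, b4, b5, b6, b7, b8⟩ := B
  simp only at ht
  subst ht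
  rcases hv with rfl | rfl <;> rfl

theorem wk_of (hv : v = .x ∨ v = .y) : wk v = true := by
  rcases hv with rfl | rfl <;> rfl

end sets

theorem InPc.setB {S : ZS (Al A A₀)} {B : BS (Al A A₀)} (h : InPc A A₀ W n q om nu iv N S B)
    (v : NF) (a : Zip (Al A A₀)) : InPc A A₀ W n q om nu iv N S (B.set v a) :=
  ⟨h.prm, h.hN, h.hn, h.sn, h.wd, BS.set_r.trans h.r, BS.set_w.trans h.w⟩

variable [DecidableEq (LF A.Tape A₀.Tape)] [DecidableEq (LG A.Tape A₀.Tape Y)]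

omit [DecidableEq (LF A.Tape A₀.Tape)] in
theorem clr_x (S : ZS (Al A A₀)) (B : BS (Al A A₀)) {v : NF} (hv : wk v = true) :
    Prog.Run (dd A A₀) (clr (ng v)) (st2 Y S B) 2 (st2 Y S (B.set v ⟨[], []⟩)) := by
  have := run_clrG (Y := Y) (ng v) S B
  rwa [z2_set hv] at this

omit [DecidableEq (LF A.Tape A₀.Tape)] in
theorem clr_res (S : ZS (Al A A₀)) (B : BS (Al A A₀)) :
    Prog.Run (dd A A₀) (clr (og .res)) (st2 Y S B) 2 (st2 Y { S with res := ⟨[], []⟩ } B) := by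
  have := run_clrG (Y := Y) (og .res) S B
  rwa [z2_res] at this

/-- A multiplication by `A`. -/
theorem run_mulN (hA : Multiplies A) (S : ZS (Al A A₀)) (B : BS (Al A A₀)) {n : ℕ}
    (hSn : S.n = n) (hn : 1 ≤ n) {x y : List Bool} (hx : x.length ≤ n) (hy : y.length ≤ n)
    (hX : S.opX = bw A A₀ x) (hY : S.opY = bw A A₀ y) (hc : S.clk = ⟨[], []⟩)
    (hr : S.res = ⟨[], []⟩) :
    Prog.Run (dd A A₀) (mulG A A₀ Y) (st2 Y S B) ((callC A + 30) * (mulTime A n + n) + 2)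
      (st2 Y { S with opX := ⟨[], []⟩, opY := ⟨[], []⟩, res := bw A A₀ (mulBits n x y) } B) := by
  subst hSn
  exact run_mulG hA S B hn hx hy hX hY hc hr

omit [DecidableEq (LF A.Tape A₀.Tape)] [DecidableEq (LG A.Tape A₀.Tape Y)] in
theorem size1 {N W n : ℕ} (hN : 1 ≤ N) (hW : 1024 ≤ W) (hn : 400 * N * W ≤ n) : 1 ≤ n := by
  have h1 : 1 ≤ N * W := Nat.mul_pos hN (by omega)
  have h2 : 400 * N * W = 400 * (N * W) := by ring
  omega

/-- A forward transform. -/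
noncomputable def fwdP (E : EP A A₀ Y) (C : CP A A₀ Y) (v : NF) : PG A A₀ Y :=
  .seq (C.spread v) (.seq (clr (ng v)) (.seq E.pre (.seq (clr (ng .t)) (.seq (E.ker true)
    (.seq (mulG A A₀ Y) (.seq (E.post true v) (clr (og .res))))))))

theorem run_fwdP (hA : Multiplies A) {E : EP A A₀ Y} {C : CP A A₀ Y} {cE cC : ℕ} {τ : ℕ → ℕ}
    (hE : EOk E cE τ) (hC : COk C cC) {S : ZS (Al A A₀)} {B : BS (Al A A₀)}
    (h : InPc A A₀ W n q om nu iv N S B) (hS : Rest A A₀ S) {v : NF} (hv : v = .x ∨ v = .y)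
    {x : ℕ → ℕ} (hx : ∀ i < N, x i < 2 ^ W) (hBv : B.get v = bw A A₀ (padW (padB W) W N x))
    (ht : B.t = ⟨[], []⟩) :
    Prog.Run (dd A A₀) (fwdP E C v) (st2 Y S B)
      ((cC + 3 * cE + callC A + 40) * (mulTime A n + n + N * W * τ W))
      (st2 Y S (B.set v (bw A A₀ (H778.slots (bB W) (N * (q - 1))
        (grp (q - 1) (tf W q om nu x)))))) := by
  have hQ := h.prm
  have hW := hQ.hW
  have hq1 := hQ.hq1
  have hn := h.hn
  have hN := h.hN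
  have hwk := wk_of hv
  have hn1 := size1 hN hW hn
  obtain ⟨dat, clk, opX, opY, res, n', r, w⟩ := S
  obtain ⟨s1, s2, s3, s4⟩ := hS
  simp only at s1 s2 s3 s4
  subst s1 s2 s3 s4
  obtain rfl : n' = n := h.sn
  -- the files
  set f1 := spreadB (gB W) (bB W) (N * dB W) (padW (padB W) W N x) with hf1
  set f2 := preB (bB W) (dB W) (q - 1) (q ^ 4) om N f1 with hf2
  set f3 := kerB (bB W) (dB W) (q - 1) (q ^ 4) nu with hf3
  have e1 : f1 = H778.slots (bB W) (N * dB W) (grp (dB W) (H293.Bp.dg W x)) :=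
    H293.Bp.spread_eq hQ hx
  have e2 : f2 = H778.slots (bB W) (N * (2 * dB W + (q - 1)))
        (blk (dB W) (2 * dB W + (q - 1)) N fun v i => preN (q ^ 4) om (H293.Bp.dg W x v i) i) :=
    H293.Bp.pre_eq hQ hx
  have e3 : f3 = H778.slots (bB W) (dB W + (q - 1)) (kerN (dB W) (q ^ 4) nu) := rfl
  have l2 : f2.length = bB W * (N * (2 * dB W + (q - 1))) := by rw [e2, H778.length_slots]
  have l3 : f3.length = bB W * (dB W + (q - 1)) := by rw [e3, H778.length_slots]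
  have z2' := H293.Bp.size_fwd hQ hn
  have z3 : bB W * (dB W + (q - 1)) ≤ n' := by
    refine le_trans (Nat.mul_le_mul_left _ ?_) z2'
    calc dB W + (q - 1) ≤ 1 * (2 * dB W + (q - 1)) := by omega
      _ ≤ N * (2 * dB W + (q - 1)) := Nat.mul_le_mul_right _ hN
  have hpost : postB (bB W) (dB W) (q - 1) (q ^ 4) om N (mulBits n' f2 f3) =
      H778.slots (bB W) (N * (q - 1)) (grp (q - 1) (tf W q om nu x)) := H293.Bp.fwdB_eq hQ hn hx
  -- the steps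
  have r1 := hC.spread v h hv hBv ht (by
    show (padW (padB W) W N x).length = _
    unfold padW
    rw [H525.length_flatMap_const N (padB W + W) _ (by
      intro i _
      simp [zeros]), H282.Bp.gB_mul_dB]
    ring)
  have r2 := clr_x (Y := Y) ⟨dat, ⟨[], []⟩, ⟨[], []⟩, ⟨[], []⟩, ⟨[], []⟩, n', r, w⟩
    { B with t := bw A A₀ f1 } hwk
  have h2 : InPc A A₀ W n' q om nu iv N
    (⟨dat, ⟨[], []⟩, ⟨[], []⟩, ⟨[], []⟩, ⟨[], []⟩, n', r, w⟩ : ZS (Al A A₀))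
    (({ B with t := bw A A₀ f1 } : BS (Al A A₀)).set v ⟨[], []⟩) := (h.setB .t _).setB v _
  have r3 := hE.pre (w := f1) h2 (BS.set_t hv) rfl (by
      rw [e1, H778.length_slots]
      ring) (by
      intro t ht
      rw [e1, H525.slotAt_slots _ _ _ _ ht]
      refine lt_of_le_of_lt ?_ (H293.Bp.dig_lt_m hQ (z := x (t / dB W)) (i := t % dB W))
      rw [H778.val_bits]
      exact (Nat.mod_le _ _).trans (by rfl))
  have r4 := clr_x (Y := Y) ⟨dat, ⟨[], []⟩, bw A A₀ f2, ⟨[], []⟩, ⟨[], []⟩, n', r, w⟩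
    (({ B with t := bw A A₀ f1 } : BS (Al A A₀)).set v ⟨[], []⟩) (v := .t) rfl
  rw [BS.set_t_nil hv ht] at r4
  have h5 : InPc A A₀ W n' q om nu iv N
    (⟨dat, ⟨[], []⟩, bw A A₀ f2, ⟨[], []⟩, ⟨[], []⟩, n', r, w⟩ : ZS (Al A A₀))
    (B.set v ⟨[], []⟩) :=
    ⟨h.prm, h.hN, h.hn, h.sn, h.wd, BS.set_r.trans h.r, BS.set_w.trans h.w⟩
  have r5 := hE.ker true h5 ((BS.set_t hv).trans ht) rfl
  have r6 := run_mulN (Y := Y) hA ⟨dat, ⟨[], []⟩, bw A A₀ f2, bw A A₀ f3, ⟨[], []⟩, n', r, w⟩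
    (B.set v ⟨[], []⟩) (n := n') rfl hn1 (x := f2) (y := f3) (by rw [l2]; exact z2') (by rw [l3]; exact z3)
    rfl rfl rfl rfl
  have h7 : InPc A A₀ W n' q om nu iv N
    (⟨dat, ⟨[], []⟩, ⟨[], []⟩, ⟨[], []⟩, bw A A₀ (mulBits n' f2 f3), n', r, w⟩ : ZS (Al A A₀))
    (B.set v ⟨[], []⟩) :=
    ⟨h.prm, h.hN, h.hn, h.sn, h.wd, BS.set_r.trans h.r, BS.set_w.trans h.w⟩
  have r7 := hE.post (w := mulBits n' f2 f3) true v h7 hwk (BS.get_set hwk) rfl (by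
      unfold mulBits
      rw [H778.length_bits]) (by
      intro i hi k hk
      have h8 := H293.Bp.postB_read (bB W) n' (dB W) (q - 1) (q ^ 4) nu N
        (fun v i => preN (q ^ 4) om (H293.Bp.dg W x v i) i) (H282.Bp.one_le_dB W) z2'
        (H282.Bp.m_pos hQ) (fun v i _ _ => H293.Bp.preN_lt hQ _ _ _)
        (H293.Bp.conv_fits' hQ (by omega)) i k hi hk
      rw [← e2] at h8
      refine lt_of_le_of_lt (Nat.mul_le_mul_right _ (Nat.mul_le_mul_right _ h8)) ?_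
      have h9 := H293.Bp.conv_fits hQ (A := dB W + (q - 1)) (by omega)
      have e9 : (dB W + (q - 1)) * (q ^ 4 * q ^ 4) * q ^ 4 * q ^ 4 =
          (dB W + (q - 1)) * (q ^ 4 * q ^ 4) * (q ^ 4 * q ^ 4) := by ring
      rw [e9]
      exact h9)
  rw [BS.set_set] at r7
  have e8 : postB (bB W) (pE W q true) (nE W q true) (q ^ 4) (if true = true then om else nu) N
      (mulBits n' f2 f3) = H778.slots (bB W) (N * (q - 1)) (grp (q - 1) (tf W q om nu x)) :=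
    hpost
  rw [e8] at r7
  have r8 := clr_res (Y := Y) ⟨dat, ⟨[], []⟩, ⟨[], []⟩, ⟨[], []⟩, bw A A₀ (mulBits n' f2 f3), n',
    r, w⟩ (B.set v (bw A A₀ (H778.slots (bB W) (N * (q - 1)) (grp (q - 1) (tf W q om nu x)))))
  refine (r1.seq (r2.seq (r3.seq (r4.seq (r5.seq (r6.seq (r7.seq r8))))))).mono ?_
  set X := mulTime A n' + n' + N * W * τ W with hX
  have q1 : cC * n' ≤ cC * X := Nat.mul_le_mul_left _ (by omega)
  have q2 : cE * (n' + N * W * τ W) ≤ cE * X := Nat.mul_le_mul_left _ (by omega)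
  have q3 : (callC A + 30) * (mulTime A n' + n') ≤ (callC A + 30) * X :=
    Nat.mul_le_mul_left _ (by omega)
  have q4 : 8 ≤ 10 * X := by omega
  have q5 : (cC + 3 * cE + callC A + 40) * X = cC * X + 3 * (cE * X) + (callC A + 30) * X +
      10 * X := by ring
  rw [q5]
  omega

/-- The inverse transform. -/
noncomputable def bwdP (E : EP A A₀ Y) (C : CP A A₀ Y) : PG A A₀ Y :=
  .seq C.pair (.seq E.pre2 (.seq (clr (ng .t)) (.seq (E.ker false) (.seq (mulG A A₀ Y)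
    (.seq (E.post false .t) (clr (og .res)))))))

theorem run_bwdP (hA : Multiplies A) {E : EP A A₀ Y} {C : CP A A₀ Y} {cE cC : ℕ} {τ : ℕ → ℕ}
    (hE : EOk E cE τ) (hC : COk C cC) {S : ZS (Al A A₀)} {B : BS (Al A A₀)}
    (h : InPc A A₀ W n q om nu iv N S B) (hS : Rest A A₀ S) {x y : ℕ → ℕ}
    (hBx : B.x = bw A A₀ (H778.slots (bB W) (N * (q - 1)) (grp (q - 1) (tf W q om nu x))))
    (hBy : B.y = bw A A₀ (H778.slots (bB W) (N * (q - 1)) (grp (q - 1) (tf W q om nu y))))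
    (ht : B.t = ⟨[], []⟩) :
    Prog.Run (dd A A₀) (bwdP E C) (st2 Y S B)
      ((cC + 3 * cE + callC A + 40) * (mulTime A n + n + N * W * τ W))
      (st2 Y S { B with
        x := ⟨[], []⟩
        y := ⟨[], []⟩
        t := bw A A₀ (H778.slots (bB W) (N * (2 * dB W - 1)) (grp (2 * dB W - 1)
          (co W x y))) }) := by
  have hQ := h.prm
  have hW := hQ.hW
  have hq1 := hQ.hq1
  have hn := h.hn
  have hN := h.hN
  have hD := H282.Bp.one_le_dB W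
  have hn1 := size1 hN hW hn
  obtain ⟨dat, clk, opX, opY, res, n', r, w⟩ := S
  obtain ⟨s1, s2, s3, s4⟩ := hS
  simp only at s1 s2 s3 s4
  subst s1 s2 s3 s4
  obtain rfl : n' = n := h.sn
  obtain ⟨b1, b2, b3, b4, b5, b6, b7, b8⟩ := B
  simp only at hBx hBy ht
  subst hBx hBy ht
  set fx := H778.slots (bB W) (N * (q - 1)) (grp (q - 1) (tf W q om nu x)) with hfx
  set fy := H778.slots (bB W) (N * (q - 1)) (grp (q - 1) (tf W q om nu y)) with hfy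
  set f1 := pairB (bB W) (N * (q - 1)) fx fy with hf1
  set f2 := pre2B (bB W) (q - 1) (2 * dB W - 1) (q ^ 4) nu iv N f1 with hf2
  set f3 := kerB (bB W) (q - 1) (2 * dB W - 1) (q ^ 4) om with hf3
  have e1 : f1 = H778.slots (bB W) (N * (q - 1) * 2) (grp 2 fun t s => if s = 0 then
      grp (q - 1) (tf W q om nu x) t else grp (q - 1) (tf W q om nu y) t) :=
    H293.Bp.pairB_slots _ _ _ _
  have e2 : f2 = H778.slots (bB W) (N * (2 * (q - 1) + (2 * dB W - 1)))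
      (blk (q - 1) (2 * (q - 1) + (2 * dB W - 1)) N (pr W q om nu iv x y)) :=
    H293.Bp.pre2_eq hQ
  have e3 : f3 = H778.slots (bB W) ((q - 1) + (2 * dB W - 1)) (kerN (q - 1) (q ^ 4) om) := rfl
  have l2 : f2.length = bB W * (N * (2 * (q - 1) + (2 * dB W - 1))) := by
    rw [e2, H778.length_slots]
  have l3 : f3.length = bB W * ((q - 1) + (2 * dB W - 1)) := by rw [e3, H778.length_slots]
  have z2' := H293.Bp.size_inv hQ hn
  have z3 : bB W * ((q - 1) + (2 * dB W - 1)) ≤ n' := by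
    refine le_trans (Nat.mul_le_mul_left _ ?_) z2'
    calc (q - 1) + (2 * dB W - 1) ≤ 1 * (2 * (q - 1) + (2 * dB W - 1)) := by omega
      _ ≤ N * (2 * (q - 1) + (2 * dB W - 1)) := Nat.mul_le_mul_right _ hN
  have hpost : postB (bB W) (q - 1) (2 * dB W - 1) (q ^ 4) nu N (mulBits n' f2 f3) =
      H778.slots (bB W) (N * (2 * dB W - 1)) (grp (2 * dB W - 1) (co W x y)) :=
    H293.Bp.invB_eq hQ hn x y
  have r1 := hC.pair (w := fx) (w' := fy) h rfl rfl rfl (by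
    rw [hfx, H778.length_slots]; ring) (by rw [hfy, H778.length_slots]; ring)
  have h2 : InPc A A₀ W n' q om nu iv N
    (⟨dat, ⟨[], []⟩, ⟨[], []⟩, ⟨[], []⟩, ⟨[], []⟩, n', r, w⟩ : ZS (Al A A₀))
    ⟨b1, b2, b3, ⟨[], []⟩, ⟨[], []⟩, bw A A₀ f1, b7, b8⟩ :=
    ⟨h.prm, h.hN, h.hn, h.sn, h.wd, h.r, h.w⟩
  have r2 := hE.pre2 (w := f1) h2 rfl rfl (by
      rw [e1, H778.length_slots]
      ring) (by
      intro t ht
      rw [e1, H525.slotAt_slots _ _ _ _ (by omega), H778.val_bits]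
      refine lt_of_le_of_lt (Nat.mod_le _ _) ?_
      have hg : ∀ (z : ℕ → ℕ) i, grp (q - 1) (tf W q om nu z) i < q ^ 4 := fun z i =>
        H293.Bp.tf_lt hQ z _ _
      show (if t % 2 = 0 then _ else _) < _
      split_ifs
      · exact hg _ _
      · exact hg _ _)
  have r3 := clr_x (Y := Y) ⟨dat, ⟨[], []⟩, bw A A₀ f2, ⟨[], []⟩, ⟨[], []⟩, n', r, w⟩
    ⟨b1, b2, b3, ⟨[], []⟩, ⟨[], []⟩, bw A A₀ f1, b7, b8⟩ (v := .t) rfl
  have h4 : InPc A A₀ W n' q om nu iv N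
    (⟨dat, ⟨[], []⟩, bw A A₀ f2, ⟨[], []⟩, ⟨[], []⟩, n', r, w⟩ : ZS (Al A A₀))
    ⟨b1, b2, b3, ⟨[], []⟩, ⟨[], []⟩, ⟨[], []⟩, b7, b8⟩ :=
    ⟨h.prm, h.hN, h.hn, h.sn, h.wd, h.r, h.w⟩
  have r4 := hE.ker false h4 rfl rfl
  have r5 := run_mulN (Y := Y) hA ⟨dat, ⟨[], []⟩, bw A A₀ f2, bw A A₀ f3, ⟨[], []⟩, n', r, w⟩
    ⟨b1, b2, b3, ⟨[], []⟩, ⟨[], []⟩, ⟨[], []⟩, b7, b8⟩ (n := n') rfl hn1 (x := f2) (y := f3)
    (by rw [l2]; exact z2') (by rw [l3]; exact z3) rfl rfl rfl rfl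
  have h6 : InPc A A₀ W n' q om nu iv N
    (⟨dat, ⟨[], []⟩, ⟨[], []⟩, ⟨[], []⟩, bw A A₀ (mulBits n' f2 f3), n', r, w⟩ : ZS (Al A A₀))
    ⟨b1, b2, b3, ⟨[], []⟩, ⟨[], []⟩, ⟨[], []⟩, b7, b8⟩ :=
    ⟨h.prm, h.hN, h.hn, h.sn, h.wd, h.r, h.w⟩
  have r6 := hE.post (w := mulBits n' f2 f3) false .t h6 rfl rfl rfl (by
      unfold mulBits
      rw [H778.length_bits]) (by
      intro i hi k hk
      have h8 := H293.Bp.postB_read (bB W) n' (q - 1) (2 * dB W - 1) (q ^ 4) om N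
        (pr W q om nu iv x y) (by omega) z2'
        (H282.Bp.m_pos hQ) (fun v i _ _ => H293.Bp.pr_lt hQ _ _ _ _)
        (H293.Bp.conv_fits' hQ (by omega)) i k hi hk
      rw [← e2] at h8
      refine lt_of_le_of_lt (Nat.mul_le_mul_right _ (Nat.mul_le_mul_right _ h8)) ?_
      have h9 := H293.Bp.conv_fits hQ (A := q - 1 + (2 * dB W - 1)) (by omega)
      have e9 : (q - 1 + (2 * dB W - 1)) * (q ^ 4 * q ^ 4) * q ^ 4 * q ^ 4 =
          (q - 1 + (2 * dB W - 1)) * (q ^ 4 * q ^ 4) * (q ^ 4 * q ^ 4) := by ring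
      rw [e9]
      exact h9)
  have e8 : postB (bB W) (pE W q false) (nE W q false) (q ^ 4)
      (if false = true then om else nu) N (mulBits n' f2 f3) =
      H778.slots (bB W) (N * (2 * dB W - 1)) (grp (2 * dB W - 1) (co W x y)) := hpost
  rw [e8] at r6
  have r7 := clr_res (Y := Y) ⟨dat, ⟨[], []⟩, ⟨[], []⟩, ⟨[], []⟩, bw A A₀ (mulBits n' f2 f3), n',
    r, w⟩ ⟨b1, b2, b3, ⟨[], []⟩, ⟨[], []⟩, bw A A₀ (H778.slots (bB W) (N * (2 * dB W - 1))
      (grp (2 * dB W - 1) (co W x y))), b7, b8⟩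
  refine (r1.seq (r2.seq (r3.seq (r4.seq (r5.seq (r6.seq r7)))))).mono ?_
  set X := mulTime A n' + n' + N * W * τ W with hX
  have q1 : cC * n' ≤ cC * X := Nat.mul_le_mul_left _ (by omega)
  have q2 : cE * (n' + N * W * τ W) ≤ cE * X := Nat.mul_le_mul_left _ (by omega)
  have q3 : (callC A + 30) * (mulTime A n' + n') ≤ (callC A + 30) * X :=
    Nat.mul_le_mul_left _ (by omega)
  have q5 : (cC + 3 * cE + callC A + 40) * X = cC * X + 3 * (cE * X) + (callC A + 30) * X +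
      10 * X := by ring
  rw [q5]
  omega

/-- The sum of the digits: from `t` to `x`. -/
def sumP (C : CP A A₀ Y) : PG A A₀ Y :=
  .seq (C.car 0 .x) (.seq (C.car 1 .y) (.seq C.add (.seq (C.car 2 .y) (.seq C.add
    (clr (ng .t))))))

omit [DecidableEq (LF A.Tape A₀.Tape)] in
theorem run_sumP {C : CP A A₀ Y} {cC : ℕ} (hC : COk C cC) {S : ZS (Al A A₀)}
    {B : BS (Al A A₀)} (h : InPc A A₀ W n q om nu iv N S B)
    {x y : ℕ → ℕ} (hx : ∀ i < N, x i < 2 ^ W) (hy : ∀ i < N, y i < 2 ^ W)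
    (hBx : B.x = ⟨[], []⟩) (hBy : B.y = ⟨[], []⟩)
    (ht : B.t = bw A A₀ (H778.slots (bB W) (N * (2 * dB W - 1)) (grp (2 * dB W - 1)
          (co W x y)))) :
    Prog.Run (dd A A₀) (sumP C) (st2 Y S B) (5 * (cC * n) + 2)
      (st2 Y S { B with
        x := bw A A₀ (H778.slots (2 * padB W + gB W + 2 * W) N fun v => x v * y v)
        y := ⟨[], []⟩
        t := ⟨[], []⟩ }) := by
  have hQ := h.prm
  have hW := hQ.hW
  have hn := h.hn
  have hN := h.hN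
  have hD := H282.Bp.one_le_dB W
  obtain ⟨b1, b2, b3, b4, b5, b6, b7, b8⟩ := B
  simp only at hBx hBy ht
  subst hBx hBy
  obtain ⟨f, hf⟩ : ∃ f, f = H778.slots (bB W) (N * (2 * dB W - 1)) (grp (2 * dB W - 1)
    (co W x y)) := ⟨_, rfl⟩
  rw [← hf] at ht
  subst ht
  have lf : f.length = N * (2 * dB W - 1) * bB W := by rw [hf, H778.length_slots]; ring
  have lc : ∀ v ≤ 2, (carB (gB W) (bB W) v (2 * dB W - 1) N f).length =
      gB W * (2 * dB W - 1 + 2) * N := by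
    intro v hv
    rw [hf, H293.Bp.carB_slots _ _ v _ _ hv H293.Bp.three_gB_le, H778.length_slots]
  have hsum : addB (addB (carB (gB W) (bB W) 0 (2 * dB W - 1) N f)
      (carB (gB W) (bB W) 1 (2 * dB W - 1) N f)) (carB (gB W) (bB W) 2 (2 * dB W - 1) N f) =
      H778.slots (2 * padB W + gB W + 2 * W) N fun v => x v * y v := by
    rw [hf]
    exact H293.Bp.sumB_eq hQ hx hy
  have la : ∀ u v : List Bool, (addB u v).length = u.length := fun u v => by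
    unfold addB
    rw [H778.length_bits]
  -- sizes
  have hg := H293.Bp.gd_le hW
  have hgW := H293.Bp.gB_le hW
  have hgD := H282.Bp.gB_mul_dB W
  have hpad := H282.Bp.padB_le W
  have hU : gB W * (2 * dB W - 1 + 2) = 2 * padB W + gB W + 2 * W := by
    have h3 : 2 * dB W - 1 + 2 = 2 * dB W + 1 := by omega
    rw [h3]
    calc gB W * (2 * dB W + 1) = 2 * (gB W * dB W) + gB W := by ring
      _ = 2 * padB W + gB W + 2 * W := by rw [hgD]; ring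
  have hUn : gB W * (2 * dB W - 1 + 2) * N ≤ n := by
    rw [hU]
    calc (2 * padB W + gB W + 2 * W) * N ≤ (400 * W) * N := Nat.mul_le_mul_right _ (by omega)
      _ = 400 * N * W := by ring
      _ ≤ n := hn
  obtain ⟨k0, e0⟩ : ∃ k, k = carB (gB W) (bB W) 0 (2 * dB W - 1) N f := ⟨_, rfl⟩
  obtain ⟨k1, e1⟩ : ∃ k, k = carB (gB W) (bB W) 1 (2 * dB W - 1) N f := ⟨_, rfl⟩
  obtain ⟨k2, e2⟩ : ∃ k, k = carB (gB W) (bB W) 2 (2 * dB W - 1) N f := ⟨_, rfl⟩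
  have l0 := lc 0 (by norm_num)
  have l1 := lc 1 (by norm_num)
  have l2 := lc 2 (by norm_num)
  rw [← e0] at l0
  rw [← e1] at l1
  rw [← e2] at l2
  rw [← e0, ← e1, ← e2] at hsum
  have r1 := hC.car (w := f) 0 .x (by norm_num) h (.inl rfl) rfl rfl lf
  rw [← e0] at r1
  have r2 := hC.car (w := f) (B := ⟨b1, b2, b3, bw A A₀ k0, ⟨[], []⟩, bw A A₀ f, b7, b8⟩) 1 .y
    (by norm_num) ⟨h.prm, h.hN, h.hn, h.sn, h.wd, h.r, h.w⟩ (.inr rfl) rfl rfl lf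
  rw [← e1] at r2
  have r3 := hC.add (w := k0) (w' := k1)
    (B := ⟨b1, b2, b3, bw A A₀ k0, bw A A₀ k1, bw A A₀ f, b7, b8⟩)
    ⟨h.prm, h.hN, h.hn, h.sn, h.wd, h.r, h.w⟩ rfl rfl (by rw [l0, l1]) (by rw [l0]; exact hUn)
  obtain ⟨a1, ha1⟩ : ∃ k, k = addB k0 k1 := ⟨_, rfl⟩
  have la1 : a1.length = gB W * (2 * dB W - 1 + 2) * N := by rw [ha1, la, l0]
  rw [← ha1] at r3 hsum
  have r4 := hC.car (w := f) (B := ⟨b1, b2, b3, bw A A₀ a1, ⟨[], []⟩, bw A A₀ f, b7, b8⟩) 2 .y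
    (by norm_num) ⟨h.prm, h.hN, h.hn, h.sn, h.wd, h.r, h.w⟩ (.inr rfl) rfl rfl lf
  rw [← e2] at r4
  have r5 := hC.add (w := a1) (w' := k2)
    (B := ⟨b1, b2, b3, bw A A₀ a1, bw A A₀ k2, bw A A₀ f, b7, b8⟩)
    ⟨h.prm, h.hN, h.hn, h.sn, h.wd, h.r, h.w⟩ rfl rfl (by rw [la1, l2]) (by rw [la1]; exact hUn)
  rw [hsum] at r5
  obtain ⟨a2, ha2⟩ : ∃ k, k = H778.slots (2 * padB W + gB W + 2 * W) N fun v => x v * y v :=
    ⟨_, rfl⟩
  rw [← ha2] at r5 ⊢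
  have r6 := clr_x (Y := Y) S ⟨b1, b2, b3, bw A A₀ a2, ⟨[], []⟩, bw A A₀ f, b7, b8⟩ (v := .t) rfl
  refine (r1.seq (r2.seq (r3.seq (r4.seq (r5.seq r6))))).mono ?_
  omega

/-- The first multiplication of the reduction: from `x` to `opX`. -/
noncomputable def redP (C : CP A A₀ Y) : PG A A₀ Y :=
  .seq C.trim (.seq (clr (ng .x)) (.seq (C.cpw .mu) (.seq (mulG A A₀ Y) (.seq C.low
    (clr (og .res))))))

theorem run_redP (hA : Multiplies A) {C : CP A A₀ Y} {cC : ℕ}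
    (hC : COk C cC) {S : ZS (Al A A₀)} {B : BS (Al A A₀)}
    (h : InPc A A₀ W n q om nu iv N S B) (hS : Rest A A₀ S) {μ : ℕ}
    (hμ : μ < 2 ^ W) (hwμ : S.w .mu = bw A A₀ (bits W μ)) {z : ℕ → ℕ}
    (hBx : B.x = bw A A₀ (H778.slots (2 * padB W + gB W + 2 * W) N z)) :
    Prog.Run (dd A A₀) (redP C) (st2 Y S B)
      (3 * (cC * n) + (callC A + 30) * (mulTime A n + n) + 6)
      (st2 Y { S with opX := bw A A₀ (H778.slots (2 * W) N fun v => z v % 2 ^ W * μ % 2 ^ W) }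
        { B with x := ⟨[], []⟩ }) := by
  have hQ := h.prm
  have hW := hQ.hW
  have hn := h.hn
  have hN := h.hN
  have hn1 := size1 hN hW hn
  obtain ⟨dat, clk, opX, opY, res, n', r, w⟩ := S
  obtain ⟨s1, s2, s3, s4⟩ := hS
  simp only at s1 s2 s3 s4 hwμ
  subst s1 s2 s3 s4
  obtain rfl : n' = n := h.sn
  obtain ⟨b1, b2, b3, b4, b5, b6, b7, b8⟩ := B
  simp only at hBx
  have hmod : ∀ z, z % 2 ^ W < 2 ^ W := fun z => Nat.mod_lt _ (by positivity)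
  have h2n : 2 * W * N ≤ n' := by
    calc 2 * W * N = 2 * N * W := by ring
      _ ≤ 400 * N * W := Nat.mul_le_mul_right _ (Nat.mul_le_mul_right _ (by norm_num))
      _ ≤ n' := hn
  have hWn : W ≤ n' := by
    calc W ≤ 400 * N * W := Nat.le_mul_of_pos_left _ (by omega)
      _ ≤ n' := hn
  have e7 : trimB (2 * padB W + gB W) W N (H778.slots (2 * padB W + gB W + 2 * W) N z) =
      H778.slots (2 * W) N fun v => z v % 2 ^ W := H293.Bp.trimB_slots _ _ _ _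
  have l2 : (H778.slots (2 * padB W + gB W + 2 * W) N z).length =
      N * (2 * padB W + gB W + 2 * W) := by rw [H778.length_slots]; ring
  have e11 : lowB W N (mulBits n' (H778.slots (2 * W) N fun v => z v % 2 ^ W) (bits W μ)) =
      H778.slots (2 * W) N fun v => z v % 2 ^ W * μ % 2 ^ W :=
    H293.Bp.lowB_eq n' W N μ _ (fun v _ => hmod _) hμ h2n hWn
  obtain ⟨a2, ha2⟩ : ∃ k, k = H778.slots (2 * padB W + gB W + 2 * W) N z := ⟨_, rfl⟩
  obtain ⟨a3, ha3⟩ : ∃ k, k = H778.slots (2 * W) N fun v => z v % 2 ^ W := ⟨_, rfl⟩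
  obtain ⟨a4, ha4⟩ : ∃ k, k = H778.slots (2 * W) N fun v => z v % 2 ^ W * μ % 2 ^ W := ⟨_, rfl⟩
  obtain ⟨w0, hw0⟩ : ∃ k, k = bits W μ := ⟨_, rfl⟩
  have lw : w0.length = W := by rw [hw0, H778.length_bits]
  have l3 : a3.length = 2 * W * N := by rw [ha3, H778.length_slots]
  rw [← ha2, ← ha3] at e7
  rw [← ha2] at hBx l2
  rw [← ha3, ← ha4, ← hw0] at e11
  rw [← hw0] at hwμ
  rw [← ha4]
  subst hBx
  obtain ⟨a5, ha5⟩ : ∃ k, k = mulBits n' a3 w0 := ⟨_, rfl⟩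
  have l5 : a5.length = 2 * n' := by
    rw [ha5]
    unfold mulBits
    rw [H778.length_bits]
  have r7 := hC.trim (w := a2) (n := n')
    (S := ⟨dat, ⟨[], []⟩, ⟨[], []⟩, ⟨[], []⟩, ⟨[], []⟩, n', r, w⟩)
    (B := ⟨b1, b2, b3, bw A A₀ a2, b5, b6, b7, b8⟩)
    ⟨h.prm, h.hN, h.hn, h.sn, h.wd, h.r, h.w⟩ rfl rfl l2
  rw [e7] at r7
  have r8 := clr_x (Y := Y) ⟨dat, ⟨[], []⟩, bw A A₀ a3, ⟨[], []⟩, ⟨[], []⟩, n', r, w⟩
    ⟨b1, b2, b3, bw A A₀ a2, b5, b6, b7, b8⟩ (v := .x) rfl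
  have r9 := hC.cpw (w := w0) (n := n')
    (S := ⟨dat, ⟨[], []⟩, bw A A₀ a3, ⟨[], []⟩, ⟨[], []⟩, n', r, w⟩)
    (B := ⟨b1, b2, b3, ⟨[], []⟩, b5, b6, b7, b8⟩) .mu
    ⟨h.prm, h.hN, h.hn, h.sn, h.wd, h.r, h.w⟩ (.inl rfl) hwμ lw rfl
  have r10 := run_mulN (Y := Y) hA ⟨dat, ⟨[], []⟩, bw A A₀ a3, bw A A₀ w0, ⟨[], []⟩, n',
    r, w⟩ ⟨b1, b2, b3, ⟨[], []⟩, b5, b6, b7, b8⟩ (n := n') rfl hn1 (x := a3)
    (y := w0) (by rw [l3]; exact h2n)
    (by rw [lw]; exact hWn) rfl rfl rfl rfl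
  rw [← ha5] at r10 e11
  have r11 := hC.low (w := a5) (n := n')
    (S := ⟨dat, ⟨[], []⟩, ⟨[], []⟩, ⟨[], []⟩, bw A A₀ a5, n', r, w⟩)
    (B := ⟨b1, b2, b3, ⟨[], []⟩, b5, b6, b7, b8⟩)
    ⟨h.prm, h.hN, h.hn, h.sn, h.wd, h.r, h.w⟩ rfl rfl l5
  rw [e11] at r11
  have r12 := clr_res (Y := Y) ⟨dat, ⟨[], []⟩, bw A A₀ a4, ⟨[], []⟩,
    bw A A₀ a5, n', r, w⟩ ⟨b1, b2, b3, ⟨[], []⟩, b5, b6, b7, b8⟩
  refine (r7.seq (r8.seq (r9.seq (r10.seq (r11.seq r12))))).mono ?_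
  omega

/-- The second multiplication of the reduction: from `opX` to `x`. -/
noncomputable def lstP (C : CP A A₀ Y) : PG A A₀ Y :=
  .seq (C.cpw .p) (.seq (mulG A A₀ Y) (.seq C.high (clr (og .res))))

theorem run_lstP (hA : Multiplies A) {C : CP A A₀ Y} {cC : ℕ}
    (hC : COk C cC) {S : ZS (Al A A₀)} {B : BS (Al A A₀)}
    (h : InPc A A₀ W n q om nu iv N S B) {p : ℕ}
    (hp : p < 2 ^ W) (hwp : S.w .p = bw A A₀ (bits W p)) {z : ℕ → ℕ}
    (hz : ∀ i, z i < 2 ^ W)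
    (hX : S.opX = bw A A₀ (H778.slots (2 * W) N z)) (hY : S.opY = ⟨[], []⟩)
    (hR : S.res = ⟨[], []⟩) (hK : S.clk = ⟨[], []⟩) (hBx : B.x = ⟨[], []⟩) :
    Prog.Run (dd A A₀) (lstP C) (st2 Y S B)
      (2 * (cC * n) + (callC A + 30) * (mulTime A n + n) + 4)
      (st2 Y { S with opX := ⟨[], []⟩ }
        { B with x := bw A A₀ (H778.slots W N fun v => p * z v / 2 ^ W) }) := by
  have hQ := h.prm
  have hW := hQ.hW
  have hn := h.hn
  have hN := h.hN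
  have hn1 := size1 hN hW hn
  obtain ⟨dat, clk, opX, opY, res, n', r, w⟩ := S
  simp only at hX hY hR hK hwp
  subst hY hR hK
  obtain rfl : n' = n := h.sn
  obtain ⟨b1, b2, b3, b4, b5, b6, b7, b8⟩ := B
  simp only at hBx
  subst hBx
  have h2n : 2 * W * N ≤ n' := by
    calc 2 * W * N = 2 * N * W := by ring
      _ ≤ 400 * N * W := Nat.mul_le_mul_right _ (Nat.mul_le_mul_right _ (by norm_num))
      _ ≤ n' := hn
  have hWn : W ≤ n' := by
    calc W ≤ 400 * N * W := Nat.le_mul_of_pos_left _ (by omega)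
      _ ≤ n' := hn
  have e15 : highB W N (mulBits n' (H778.slots (2 * W) N z) (bits W p)) =
      H778.slots W N fun v => p * z v / 2 ^ W := by
    rw [H293.Bp.highB_eq n' W N p _ (fun v _ => hz _) hp h2n hWn]
    apply H778.slots_congr
    intro i _
    rw [mul_comm p]
  obtain ⟨a4, ha4⟩ : ∃ k, k = H778.slots (2 * W) N z := ⟨_, rfl⟩
  obtain ⟨a6, ha6⟩ : ∃ k, k = H778.slots W N fun v => p * z v / 2 ^ W := ⟨_, rfl⟩
  obtain ⟨w0, hw0⟩ : ∃ k, k = bits W p := ⟨_, rfl⟩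
  have lw : w0.length = W := by rw [hw0, H778.length_bits]
  have l4 : a4.length = 2 * W * N := by rw [ha4, H778.length_slots]
  rw [← ha4, ← ha6, ← hw0] at e15
  rw [← ha4] at hX
  rw [← hw0] at hwp
  rw [← ha6]
  subst hX
  obtain ⟨a5, ha5⟩ : ∃ k, k = mulBits n' a4 w0 := ⟨_, rfl⟩
  have l5 : a5.length = 2 * n' := by
    rw [ha5]
    unfold mulBits
    rw [H778.length_bits]
  have r13 := hC.cpw (w := w0) (n := n')
    (S := ⟨dat, ⟨[], []⟩, bw A A₀ a4, ⟨[], []⟩, ⟨[], []⟩, n', r, w⟩)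
    (B := ⟨b1, b2, b3, ⟨[], []⟩, b5, b6, b7, b8⟩) .p
    ⟨h.prm, h.hN, h.hn, h.sn, h.wd, h.r, h.w⟩ (.inr rfl) hwp lw rfl
  have r14 := run_mulN (Y := Y) hA ⟨dat, ⟨[], []⟩, bw A A₀ a4, bw A A₀ w0, ⟨[], []⟩, n',
    r, w⟩ ⟨b1, b2, b3, ⟨[], []⟩, b5, b6, b7, b8⟩ (n := n') rfl hn1 (x := a4)
    (y := w0) (by rw [l4]; exact h2n) (by rw [lw]; exact hWn) rfl rfl rfl rfl
  rw [← ha5] at r14 e15
  have r15 := hC.high (w := a5) (n := n')
    (S := ⟨dat, ⟨[], []⟩, ⟨[], []⟩, ⟨[], []⟩, bw A A₀ a5, n', r, w⟩)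
    (B := ⟨b1, b2, b3, ⟨[], []⟩, b5, b6, b7, b8⟩)
    ⟨h.prm, h.hN, h.hn, h.sn, h.wd, h.r, h.w⟩ rfl rfl l5
  rw [e15] at r15
  have r16 := clr_res (Y := Y) ⟨dat, ⟨[], []⟩, ⟨[], []⟩, ⟨[], []⟩,
    bw A A₀ a5, n', r, w⟩ ⟨b1, b2, b3, bw A A₀ a6, b5, b6, b7, b8⟩
  refine (r13.seq (r14.seq (r15.seq r16))).mono ?_
  omega

/-- The sum of the digits, the reduction modulo `p`. -/
noncomputable def finP (C : CP A A₀ Y) : PG A A₀ Y :=
  .seq (sumP C) (.seq (redP C) (lstP C))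

theorem run_finP (hA : Multiplies A) {C : CP A A₀ Y} {cC : ℕ}
    (hC : COk C cC) {S : ZS (Al A A₀)} {B : BS (Al A A₀)}
    (h : InPc A A₀ W n q om nu iv N S B) (hS : Rest A A₀ S) {p μ : ℕ} (hp : p < 2 ^ W)
    (hμ : μ < 2 ^ W) (hwp : S.w .p = bw A A₀ (bits W p)) (hwμ : S.w .mu = bw A A₀ (bits W μ))
    {x y : ℕ → ℕ} (hx : ∀ i < N, x i < 2 ^ W) (hy : ∀ i < N, y i < 2 ^ W)
    (hBx : B.x = ⟨[], []⟩) (hBy : B.y = ⟨[], []⟩)
    (ht : B.t = bw A A₀ (H778.slots (bB W) (N * (2 * dB W - 1)) (grp (2 * dB W - 1)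
          (co W x y)))) :
    Prog.Run (dd A A₀) (finP C) (st2 Y S B)
      ((10 * cC + 2 * callC A + 80) * (mulTime A n + n))
      (st2 Y S { B with
        x := bw A A₀ (H778.slots W N fun i => H525.Fp.mmN W p μ (x i) (y i))
        y := ⟨[], []⟩
        t := ⟨[], []⟩ }) := by
  have hn1 := size1 h.hN h.prm.hW h.hn
  have r1 := run_sumP hC h hx hy hBx hBy ht
  have r2 := run_redP (Y := Y) hA hC
    (B := { B with
        x := bw A A₀ (H778.slots (2 * padB W + gB W + 2 * W) N fun v => x v * y v)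
        y := ⟨[], []⟩
        t := ⟨[], []⟩ }) ⟨h.prm, h.hN, h.hn, h.sn, h.wd, h.r, h.w⟩ hS hμ hwμ rfl
  have r3 := run_lstP (Y := Y) hA hC
    (S := { S with opX := bw A A₀ (H778.slots (2 * W) N fun v => x v * y v % 2 ^ W * μ % 2 ^ W) })
    (B := { B with
        x := ⟨[], []⟩
        y := ⟨[], []⟩
        t := ⟨[], []⟩ }) ⟨h.prm, h.hN, h.hn, h.sn, h.wd, h.r, h.w⟩ hp hwp
    (fun i => Nat.mod_lt _ (by positivity)) rfl hS.opY hS.res hS.clk rfl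
  have e : H778.slots W N (fun v => p * (x v * y v % 2 ^ W * μ % 2 ^ W) / 2 ^ W) =
      H778.slots W N fun i => H525.Fp.mmN W p μ (x i) (y i) := by
    apply H778.slots_congr
    intro i _
    unfold H525.Fp.mmN
    rw [mul_comm μ]
  rw [e] at r3
  have hS' : ({ S with opX := ⟨[], []⟩ } : ZS (Al A A₀)) = S := by
    obtain ⟨s1, s2, s3, s4, s5, s6, s7, s8⟩ := S
    have := hS.opX
    simp only at this
    subst this
    rfl
  have hS'' : ({ ({ S with opX := bw A A₀ (H778.slots (2 * W) N fun v =>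
      x v * y v % 2 ^ W * μ % 2 ^ W) } : ZS (Al A A₀)) with opX := ⟨[], []⟩ } : ZS (Al A A₀)) =
      S := hS'
  rw [hS''] at r3
  refine (r1.seq (r2.seq r3)).mono ?_
  set X := mulTime A n + n with hX
  have q1 : cC * n ≤ cC * X := Nat.mul_le_mul_left _ (by omega)
  have q5 : (10 * cC + 2 * callC A + 80) * X = 10 * (cC * X) + 2 * ((callC A + 30) * X) +
      20 * X := by ring
  rw [q5]
  omega

/-- A piece. -/
noncomputable def pieceP (E : EP A A₀ Y) (C : CP A A₀ Y) : PG A A₀ Y :=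
  .seq (fwdP E C .x) (.seq (fwdP E C .y) (.seq (bwdP E C) (finP C)))

/-- **A piece.** -/
theorem pieceOK (hA : Multiplies A) {E : EP A A₀ Y} {C : CP A A₀ Y} {cE cC : ℕ} {τ : ℕ → ℕ}
    (hE : EOk E cE τ) (hC : COk C cC) :
    PieceOK (pieceP E C) (13 * cC + 9 * cE + 5 * callC A + 200) τ := by
  intro W n q om nu iv N p μ S B x y h hS hp hμ hwp hwμ hx hy hBx hBy ht
  obtain ⟨b1, b2, b3, b4, b5, b6, b7, b8⟩ := B
  simp only at hBx hBy ht
  subst hBx hBy ht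
  have i0 : ∀ (X Y' T' : Zip (Al A A₀)), InPc A A₀ W n q om nu iv N S
    ⟨b1, b2, b3, X, Y', T', b7, b8⟩ := fun _ _ _ => ⟨h.prm, h.hN, h.hn, h.sn, h.wd, h.r, h.w⟩
  have r1 := run_fwdP hA hE hC h hS (v := .x) (.inl rfl) hx rfl rfl
  have r2 := run_fwdP hA hE hC (i0 (bw A A₀ (H778.slots (bB W) (N * (q - 1)) (grp (q - 1)
    (tf W q om nu x)))) (bw A A₀ (padW (padB W) W N y)) ⟨[], []⟩) hS (v := .y) (.inr rfl) hy
    rfl rfl
  have r3 := run_bwdP hA hE hC (i0 (bw A A₀ (H778.slots (bB W) (N * (q - 1)) (grp (q - 1)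
    (tf W q om nu x)))) (bw A A₀ (H778.slots (bB W) (N * (q - 1)) (grp (q - 1)
    (tf W q om nu y)))) ⟨[], []⟩) hS rfl rfl rfl
  have r4 := run_finP hA hC (i0 ⟨[], []⟩ ⟨[], []⟩ (bw A A₀ (H778.slots (bB W)
    (N * (2 * dB W - 1)) (grp (2 * dB W - 1) (co W x y))))) hS hp hμ hwp hwμ hx hy rfl rfl rfl
  refine (r1.seq (r2.seq (r3.seq r4))).mono ?_
  set X := mulTime A n + n + N * W * τ W with hX
  have q1 : (10 * cC + 2 * callC A + 80) * (mulTime A n + n) ≤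
      (10 * cC + 2 * callC A + 80) * X := Nat.mul_le_mul_left _ (by omega)
  have q2 : (13 * cC + 9 * cE + 5 * callC A + 200) * X = 3 * ((cC + 3 * cE + callC A + 40) * X) +
      (10 * cC + 2 * callC A + 80) * X := by ring
  rw [q2]
  omega

end Vale.Agent.P338.R2.H784.Bp
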