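import Vale.Agent.P338.R2.H784.Bp.Run2

/-!
P338, stage 3: the operations used in a piece (interface).
-/

namespace Vale.Agent.P338.R2.H784.Bp

open Vale.Agent.P338.R2.H898
open Vale.Agent.P338.R2.H968
open Vale.Agent.P338.R2.H784
open Vale.Agent.P338.R2.H784.Fp
open Vale.Agent.P338.R2.H968.CallEnv (mem0 callC)
open Vale.Agent.P338.R2.H525 (dBits mulBits slotAt zeros)
open Vale.Agent.P338.R2.H778 (bits)
open Vale.Agent.P338.R2.H778.FpW (PN)
open Function (update)

/-- The three work files. -/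
def wk : NF → Bool
  | .x => true
  | .y => true
  | .t => true
  | _ => false

/-- Set a work file. -/
def BS.set {α : Type} (B : BS α) (v : NF) (a : Zip α) : BS α :=
  match v with
  | .x => { B with x := a }
  | .y => { B with y := a }
  | .t => { B with t := a }
  | _ => B

/-- The contents of a work file. -/
def BS.get {α : Type} (B : BS α) (v : NF) : Zip α :=
  match v with
  | .x => B.x
  | .y => B.y
  | .t => B.t
  | _ => ⟨[], []⟩

theorem z2_set {T T₀ Y α : Type} {u : α} [DecidableEq (LG T T₀ Y)] {S : ZS α} {B : BS α}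
    {a : Zip α} {v : NF} (hv : wk v = true) :
    update (z2 (T := T) (T₀ := T₀) (Y := Y) u S B) (ng v) a = z2 u S (B.set v a) := by
  cases v
  case x => exact z2_x
  case y => exact z2_y
  case t => exact z2_t
  all_goals simp [wk] at hv

theorem z2_get {T T₀ Y α : Type} {u : α} {S : ZS α} {B : BS α} {v : NF} (hv : wk v = true) :
    z2 (T := T) (T₀ := T₀) (Y := Y) u S B (ng v) = B.get v := by
  cases v
  case x => rfl
  case y => rfl
  case t => rfl
  all_goals simp [wk] at hv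

/-- Length and number of values of the transforms (`true`: forward). -/
def pE (W q : ℕ) : Bool → ℕ
  | true => dB W
  | false => q - 1
def nE (W q : ℕ) : Bool → ℕ
  | true => q - 1
  | false => 2 * dB W - 1

/-- The element programs: `pre`: `t` to `opX` (forward); `ker`: to `opY` (`t` is empty); `post`:
`res` to a work file; `pre2`: `t` to `opX` (backward). -/
structure EP (A A₀ : MTM) (Y : Type) where
  pre : PG A A₀ Y
  ker : Bool → PG A A₀ Y
  post : Bool → NF → PG A A₀ Y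
  pre2 : PG A A₀ Y

/-- The conditions on the state in a piece. -/
structure InPc (A A₀ : MTM) (W n q om nu iv N : ℕ) (S : ZS (Al A A₀)) (B : BS (Al A A₀)) :
    Prop where
  prm : Prm W q om nu iv
  hN : 1 ≤ N
  hn : 400 * N * W ≤ n
  sn : S.n = n
  wd : S.r .wd = W
  r : B.r = rV W n q N
  w : B.w = wV A A₀ W q om nu iv

/-- Specification of the element programs; `τ W` is the cost for one bit. -/
structure EOk {A A₀ : MTM} {Y : Type} [DecidableEq (LG A.Tape A₀.Tape Y)] (E : EP A A₀ Y) (c : ℕ) (τ : ℕ → ℕ) : Prop where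
  pre : ∀ {W n q om nu iv N : ℕ} {S : ZS (Al A A₀)} {B : BS (Al A A₀)} {w : List Bool},
    InPc A A₀ W n q om nu iv N S B → B.t = bw A A₀ w → S.opX = ⟨[], []⟩ →
    w.length = N * dB W * bB W → (∀ t < N * dB W, H778.val (slotAt (bB W) w t) < q ^ 4) →
    Prog.Run (dd A A₀) E.pre (st2 Y S B) (c * (n + N * W * τ W))
      (st2 Y { S with opX := bw A A₀ (preB (bB W) (dB W) (q - 1) (q ^ 4) om N w) } B)
  ker : ∀ {W n q om nu iv N : ℕ} {S : ZS (Al A A₀)} {B : BS (Al A A₀)} (f : Bool),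
    InPc A A₀ W n q om nu iv N S B → B.t = ⟨[], []⟩ → S.opY = ⟨[], []⟩ →
    Prog.Run (dd A A₀) (E.ker f) (st2 Y S B) (c * (n + N * W * τ W))
      (st2 Y { S with opY := bw A A₀ (kerB (bB W) (pE W q f) (nE W q f) (q ^ 4)
        (if f then nu else om)) } B)
  post : ∀ {W n q om nu iv N : ℕ} {S : ZS (Al A A₀)} {B : BS (Al A A₀)} {w : List Bool}
    (f : Bool) (v : NF), InPc A A₀ W n q om nu iv N S B → wk v = true → B.get v = ⟨[], []⟩ →
    S.res = bw A A₀ w → w.length = 2 * n →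
    (∀ i < N, ∀ k < nE W q f, H778.val (slotAt (bB W) w (i * (2 * pE W q f + nE W q f) + pE W q f
      + k)) * q ^ 4 * q ^ 4 < 2 ^ bB W) →
    Prog.Run (dd A A₀) (E.post f v) (st2 Y S B) (c * (n + N * W * τ W))
      (st2 Y S (B.set v (bw A A₀ (postB (bB W) (pE W q f) (nE W q f) (q ^ 4)
        (if f then om else nu) N w))))
  pre2 : ∀ {W n q om nu iv N : ℕ} {S : ZS (Al A A₀)} {B : BS (Al A A₀)} {w : List Bool},
    InPc A A₀ W n q om nu iv N S B → B.t = bw A A₀ w → S.opX = ⟨[], []⟩ →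
    w.length = 2 * (N * (q - 1)) * bB W →
    (∀ t < 2 * (N * (q - 1)), H778.val (slotAt (bB W) w t) < q ^ 4) →
    Prog.Run (dd A A₀) E.pre2 (st2 Y S B) (c * (n + N * W * τ W))
      (st2 Y { S with opX := bw A A₀ (pre2B (bB W) (q - 1) (2 * dB W - 1) (q ^ 4) nu iv N w) } B)

/-- The copy programs. -/
structure CP (A A₀ : MTM) (Y : Type) where
  /-- a work file to `t` -/
  spread : NF → PG A A₀ Y
  /-- `x`, `y` to `t`; `x`, `y` are emptied -/
  pair : PG A A₀ Y
  /-- `t` to a work file -/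
  car : ℕ → NF → PG A A₀ Y
  /-- `x := x + y`; `y` is emptied -/
  add : PG A A₀ Y
  /-- `x` to `opX` -/
  trim : PG A A₀ Y
  /-- a word of `W` bits to `opY` -/
  cpw : WN → PG A A₀ Y
  /-- `res` to `opX` -/
  low : PG A A₀ Y
  /-- `res` to `x` -/
  high : PG A A₀ Y

/-- Specification of the copy programs. -/
structure COk {A A₀ : MTM} {Y : Type} [DecidableEq (LG A.Tape A₀.Tape Y)] (C : CP A A₀ Y)
    (c : ℕ) : Prop where
  spread : ∀ {W n q om nu iv N : ℕ} {S : ZS (Al A A₀)} {B : BS (Al A A₀)} {w : List Bool}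
    (v : NF), InPc A A₀ W n q om nu iv N S B → (v = .x ∨ v = .y) → B.get v = bw A A₀ w →
    B.t = ⟨[], []⟩ → w.length = N * (gB W * dB W) →
    Prog.Run (dd A A₀) (C.spread v) (st2 Y S B) (c * n)
      (st2 Y S { B with t := bw A A₀ (spreadB (gB W) (bB W) (N * dB W) w) })
  pair : ∀ {W n q om nu iv N : ℕ} {S : ZS (Al A A₀)} {B : BS (Al A A₀)} {w w' : List Bool},
    InPc A A₀ W n q om nu iv N S B → B.x = bw A A₀ w → B.y = bw A A₀ w' → B.t = ⟨[], []⟩ →
    w.length = N * (q - 1) * bB W → w'.length = N * (q - 1) * bB W →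
    Prog.Run (dd A A₀) C.pair (st2 Y S B) (c * n)
      (st2 Y S { B with
        x := ⟨[], []⟩
        y := ⟨[], []⟩
        t := bw A A₀ (pairB (bB W) (N * (q - 1)) w w') })
  car : ∀ {W n q om nu iv N : ℕ} {S : ZS (Al A A₀)} {B : BS (Al A A₀)} {w : List Bool}
    (i : ℕ) (v : NF), i < 3 → InPc A A₀ W n q om nu iv N S B → (v = .x ∨ v = .y) →
    B.get v = ⟨[], []⟩ → B.t = bw A A₀ w → w.length = N * (2 * dB W - 1) * bB W →
    Prog.Run (dd A A₀) (C.car i v) (st2 Y S B) (c * n)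
      (st2 Y S (B.set v (bw A A₀ (carB (gB W) (bB W) i (2 * dB W - 1) N w))))
  add : ∀ {W n q om nu iv N : ℕ} {S : ZS (Al A A₀)} {B : BS (Al A A₀)} {w w' : List Bool},
    InPc A A₀ W n q om nu iv N S B → B.x = bw A A₀ w → B.y = bw A A₀ w' →
    w.length = w'.length → w.length ≤ n →
    Prog.Run (dd A A₀) C.add (st2 Y S B) (c * n)
      (st2 Y S { B with x := bw A A₀ (addB w w'), y := ⟨[], []⟩ })
  trim : ∀ {W n q om nu iv N : ℕ} {S : ZS (Al A A₀)} {B : BS (Al A A₀)} {w : List Bool},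
    InPc A A₀ W n q om nu iv N S B → B.x = bw A A₀ w → S.opX = ⟨[], []⟩ →
    w.length = N * (2 * padB W + gB W + 2 * W) →
    Prog.Run (dd A A₀) C.trim (st2 Y S B) (c * n)
      (st2 Y { S with opX := bw A A₀ (trimB (2 * padB W + gB W) W N w) } B)
  cpw : ∀ {W n q om nu iv N : ℕ} {S : ZS (Al A A₀)} {B : BS (Al A A₀)} {w : List Bool}
    (k : WN), InPc A A₀ W n q om nu iv N S B → (k = .mu ∨ k = .p) → S.w k = bw A A₀ w →
    w.length = W → S.opY = ⟨[], []⟩ →
    Prog.Run (dd A A₀) (C.cpw k) (st2 Y S B) (c * n) (st2 Y { S with opY := bw A A₀ w } B)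
  low : ∀ {W n q om nu iv N : ℕ} {S : ZS (Al A A₀)} {B : BS (Al A A₀)} {w : List Bool},
    InPc A A₀ W n q om nu iv N S B → S.res = bw A A₀ w → S.opX = ⟨[], []⟩ → w.length = 2 * n →
    Prog.Run (dd A A₀) C.low (st2 Y S B) (c * n)
      (st2 Y { S with opX := bw A A₀ (lowB W N w) } B)
  high : ∀ {W n q om nu iv N : ℕ} {S : ZS (Al A A₀)} {B : BS (Al A A₀)} {w : List Bool},
    InPc A A₀ W n q om nu iv N S B → S.res = bw A A₀ w → B.x = ⟨[], []⟩ → w.length = 2 * n →
    Prog.Run (dd A A₀) C.high (st2 Y S B) (c * n)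
      (st2 Y S { B with x := bw A A₀ (highB W N w) })

end Vale.Agent.P338.R2.H784.Bp
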