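import Vale.Agent.P338.R2.H898.XWord
import Vale.Agent.P338.R2.H784.Bp.Spec

/-!
P338, stage 3: the programs of the element passes (words of `b` bits, modulo `m`).
-/

namespace Vale.Agent.P338.R2.H784.Bp

open H898
open H898.XP

/-- The rulers of a transform: length, number of values, number of vectors. -/
inductive ER
  | P | R | N
  deriving DecidableEq

instance : Fintype ER := ⟨{.P, .R, .N}, by
  intro x
  cases x <;> simp⟩

/-- The registers: the root, its inverse, `iv`; scratch: `x`, `y`, `c`, `s`, `o`. -/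
inductive EV
  | r | ri | iv | x | y | c | s | o
  deriving DecidableEq

instance : Fintype EV := ⟨{.r, .ri, .iv, .x, .y, .c, .s, .o}, by
  intro x
  cases x <;> simp⟩

/-- The scratch registers. -/
def scE : List EV := [.x, .y, .c, .s, .o]

/-- `c := c * s`, `s := s * r`. -/
def stepX (r : EV) : XP ER Bool (WI EV) :=
  seq (ext (.mul .c .c .s)) (ext (.mul .s .s r))

/-- First pass. -/
def preX : XP ER Bool (WI EV) :=
  loop .N (seq (ext (.one .c)) (seq (ext (.cp .s .r))
    (seq (loop .P (seq (ext (.rd .x)) (seq (ext (.mul .x .x .c)) (seq (ext (.wr .x))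
      (stepX .r)))))
    (seq (loop .P (ext (.wr .o))) (loop .R (ext (.wr .o)))))))

/-- The kernel. -/
def kerX : XP ER Bool (WI EV) :=
  seq (ext (.one .c)) (seq (ext (.one .x)) (seq (ext (.one .s))
    (seq (loop .P (seq (ext (.mul .c .c .x)) (seq (ext (.mul .x .x .ri))
      (ext (.mul .s .s .r)))))
    (seq (ext (.mul .s .s .ri))
    (seq (loop .P (seq (ext (.wr .c)) (stepX .ri)))
      (loop .R (seq (ext (.wr .c)) (stepX .ri))))))))

/-- Last pass. -/
def postX : XP ER Bool (WI EV) :=
  loop .N (seq (loop .P (ext (.rd .x))) (seq (ext (.one .c)) (seq (ext (.one .s))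
    (seq (loop .R (seq (ext (.rd .x)) (seq (ext (.mul .x .x .c)) (seq (ext (.wr .x))
      (stepX .r)))))
    (loop .P (ext (.rd .x)))))))

/-- Elementwise product and first pass. -/
def pre2X : XP ER Bool (WI EV) :=
  loop .N (seq (ext (.cp .c .iv)) (seq (ext (.cp .s .r))
    (seq (loop .P (seq (ext (.rd .x)) (seq (ext (.rd .y)) (seq (ext (.mul .x .x .y))
      (seq (ext (.mul .x .x .c)) (seq (ext (.wr .x)) (stepX .r)))))))
    (seq (loop .P (ext (.wr .o))) (loop .R (ext (.wr .o)))))))

end Vale.Agent.P338.R2.H784.Bp
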