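import Vale.Agent.P338.R2.H784.Bp.Pass2

/-!
P338, stage 3: states of a piece, element passes as `Run` statements.
-/

namespace Vale.Agent.P338.R2.H784.Bp

open Vale.Agent.P338.R2.H898
open Vale.Agent.P338.R2.H968
open Vale.Agent.P338.R2.H784
open Vale.Agent.P338.R2.H784.Fp
open Vale.Agent.P338.R2.H968.CallEnv (mem0 callC)
open Vale.Agent.P338.R2.H525 (dBits mulBits)
open Vale.Agent.P338.R2.H778 (bits)
open Vale.Agent.P338.R2.H778.FpW (PN)
open Function (update)

variable {A A₀ : MTM} {Y : Type} {W n q om nu iv N : ℕ}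

/-- The rulers of a piece. -/
def rV (W n q N : ℕ) : BN → ℕ
  | .g => gB W
  | .b => bB W
  | .pd => padB W
  | .D => dB W
  | .J2 => 2 * dB W - 1
  | .J => jB W n
  | .Q2 => q - 1
  | .N => N
  | .N2 => 0

/-- The words. -/
def wV (A A₀ : MTM) (W q om nu iv : ℕ) : BW → Zip (Al A A₀)
  | .om => bw A A₀ (bits (bB W) om)
  | .nu => bw A A₀ (bits (bB W) nu)
  | .iv => bw A A₀ (bits (bB W) iv)
  | .m => bw A A₀ (bits (bB W) (q ^ 4))
  | .mum => bw A A₀ (bits (bB W) (2 ^ bB W / q ^ 4 + 1))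
  | .s _ => ⟨[], []⟩

/-- The store of a state. -/
abbrev st2 (Y : Type) (S : ZS (Al A A₀)) (B : BS (Al A A₀)) :
    Store (Mem A A₀) (LG A.Tape A₀.Tape Y) (Al A A₀) := ⟨(mem0 A, mem0 A₀), z2 .u S B⟩

/-- The type of programs. -/
abbrev PG (A A₀ : MTM) (Y : Type) : Type := Prog (Mem A A₀) (LG A.Tape A₀.Tape Y) (Al A A₀)

/-- The numbers of the registers at the beginning of an element pass. -/
def uE (om nu iv : ℕ) (f : Bool) : EV → ℕ
  | .r => if f then om else nu
  | .ri => if f then nu else om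
  | .iv => iv
  | _ => 0

/-- The lengths of the rulers in an element pass. -/
def mE (W n q N : ℕ) (f : Bool) : ER → ℕ
  | .P => rV W n q N (rP f)
  | .R => rV W n q N (rR f)
  | .N => N

section

variable [DecidableEq (LG A.Tape A₀.Tape Y)] [DecidableEq (Al A A₀)]

/-- An element pass. -/
noncomputable def eP (A A₀ : MTM) {Y : Type} [DecidableEq (Al A A₀)] (fi fo : LG A.Tape A₀.Tape Y) (f : Bool)
    (a : XP ER Bool (WI EV)) : PG A A₀ Y :=
  (wpass (lE A A₀ ER EV) .u .k scE a).map (Lens.idL _) (ie A.Tape A₀.Tape Y fi fo f)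

theorem run_eP (hA₀ : Multiplies A₀) {fi fo : LG A.Tape A₀.Tape Y} (h1 : dg fi = true)
    (h2 : dg fo = true) (h3 : fi ≠ fo) (f : Bool) {a : XP ER Bool (WI EV)} (hwf : a.WF)
    (hg : gB W ≤ bB W) (hb : 1 ≤ bB W) (hm : q ^ 4 < 2 ^ bB W)
    (hμ : 2 ^ bB W / q ^ 4 + 1 < 2 ^ bB W) (hpos : ∀ r, 0 < mE W n q N f r)
    (S : ZS (Al A A₀)) (B : BS (Al A A₀)) (hr : B.r = rV W n q N)
    (hw : B.w = wV A A₀ W q om nu iv) (w out : List Bool)
    (hin : z2 (T := A.Tape) (T₀ := A₀.Tape) (Y := Y) .u S B fi = bw A A₀ w)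
    (hout : z2 (T := A.Tape) (T₀ := A₀.Tape) (Y := Y) .u S B fo = ⟨[], []⟩)
    (hev : ∃ n' u1, (∀ i, i ∉ scE → u1 i = uE om nu iv f i) ∧
      XP.eval (mE W n q N f) w false (wsem (bB W) (gB W) (q ^ 4) (2 ^ bB W / q ^ 4 + 1)) a
        ⟨fun _ => 0, 0, [], uE om nu iv f⟩ = ⟨fun _ => 0, n', out, u1⟩) :
    Prog.Run (dd A A₀) (eP A A₀ fi fo f a) (st2 Y S B)
      (XP.bd (mE W n q N f) (fun _ => wcost A₀ (bB W)) a + 5 * (4 * bB W + 4) + 4)
      ⟨(mem0 A, mem0 A₀), update (z2 .u S B) fo (bw A A₀ out)⟩ := by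
  obtain ⟨n', u1, hu1, hev⟩ := hev
  have huE : (fun i => if i ∈ scE then 0 else uE om nu iv f i) = uE om nu iv f := by
    funext i
    cases i <;> simp [scE, uE]
  have hrun := run_wpassMap (d := dd A A₀) (M := Mem A A₀) hA₀ (lE A A₀ ER EV) (fun _ => rfl) .u
    .k (by simp) scE (by decide) a hwf (mem := (mem0 A, mem0 A₀)) rfl
    (W := bB W) (L := gB W) (p := q ^ 4) (μ := 2 ^ bB W / q ^ 4 + 1) hg hb hm hμ
    (mE W n q N f) (fun r _ => hpos r) (uE om nu iv f) u1 hu1 w
    (ι := ie A.Tape A₀.Tape Y fi fo f) (ie_inj h1 h2 h3) (z2 .u S B)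
    (by
      refine ⟨hin, hout, ?_, ?_, ⟨_, rfl, ?_⟩, ⟨_, rfl, ?_⟩, ?_, ?_, ?_⟩
      · intro r _
        cases r
        · show ru _ (B.r (rP f)) = _
          rw [hr]
          rfl
        · show ru _ (B.r (rR f)) = _
          rw [hr]
          rfl
        · show ru _ (B.r .N) = _
          rw [hr]
          rfl
      · intro i
        cases i
        · show B.w (wR f) = _
          rw [hw]
          cases f <;> rfl
        · show B.w (wI f) = _
          rw [hw]
          cases f <;> rfl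
        · show B.w .iv = _
          rw [hw]
          rfl
        all_goals
          show B.w _ = _
          rw [hw]
          rfl
      · show (List.replicate (B.r .b) _).length = _
        rw [List.length_replicate, hr]
        rfl
      · show (List.replicate (B.r .g) _).length = _
        rw [List.length_replicate, hr]
        rfl
      · show B.w .m = _
        rw [hw]
        rfl
      · show B.w .mum = _
        rw [hw]
        rfl
      · intro c
        rcases c with i | k <;> rfl)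
    (by
      rw [huE]
      exact hev)
  exact hrun

omit [DecidableEq (Al A A₀)] in
/-- Emptying a file. -/
theorem run_clrG (f : LG A.Tape A₀.Tape Y) (S : ZS (Al A A₀)) (B : BS (Al A A₀)) :
    Prog.Run (dd A A₀) (clr f) (st2 Y S B) 2
      ⟨(mem0 A, mem0 A₀), update (z2 .u S B) f ⟨[], []⟩⟩ :=
  run_clr (d := dd A A₀) f (mem0 A, mem0 A₀) (z2 .u S B)

end

section mul

variable [DecidableEq (LF A.Tape A₀.Tape)] [DecidableEq (LG A.Tape A₀.Tape Y)]

/-- A multiplication by `A`; the operands and the clock are emptied. -/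
noncomputable def mulG (A A₀ : MTM) (Y : Type) [DecidableEq (LF A.Tape A₀.Tape)] : PG A A₀ Y :=
  (mulQ A A₀).map (Lens.idL _) Sum.inl

theorem run_mulG (hA : Multiplies A) (S : ZS (Al A A₀)) (B : BS (Al A A₀)) (hn : 1 ≤ S.n)
    {x y : List Bool} (hx : x.length ≤ S.n) (hy : y.length ≤ S.n)
    (hX : S.opX = bw A A₀ x) (hY : S.opY = bw A A₀ y) (hc : S.clk = ⟨[], []⟩)
    (hr : S.res = ⟨[], []⟩) :
    Prog.Run (dd A A₀) (mulG A A₀ Y) (st2 Y S B)
      ((callC A + 30) * (mulTime A S.n + S.n) + 2)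
      (st2 Y { S with opX := ⟨[], []⟩, opY := ⟨[], []⟩, res := bw A A₀ (mulBits S.n x y) } B) := by
  obtain ⟨dat, clk, opX, opY, res, n, r, w⟩ := S
  simp only at hc
  subst hc
  obtain ⟨T', hT', hrun⟩ := run_mulA hA _ hn hx hy hX hY rfl hr
  have h2 := run_clr (d := dd A A₀) (lz .clk : LF A.Tape A₀.Tape) (mem0 A, mem0 A₀)
    (zst .u ⟨dat, ⟨List.replicate T' .u, []⟩, ⟨[], []⟩, ⟨[], []⟩, bw A A₀ (mulBits n x y), n, r,
      w⟩)
  rw [zst_clk] at h2
  exact run_old (B := B) ((hrun.seq h2).mono (Nat.add_le_add_right (Nat.mul_le_mul_left _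
    (Nat.add_le_add_right hT' n)) 2))

end mul

end Vale.Agent.P338.R2.H784.Bp
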