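import Vale.Agent.P338.R2.H784.Fp.Embed
import Vale.Agent.P338.R2.H784.Bp.Spec

/-!
P338, stage 3: the files.
-/

namespace Vale.Agent.P338.R2.H784.Bp

open Vale.Agent.P338.R2.H898
open Vale.Agent.P338.R2.H968
open Vale.Agent.P338.R2.H784
open Vale.Agent.P338.R2.H784.Fp
open Vale.Agent.P338.R2.H968.CallEnv (mem0 callC)
open Vale.Agent.P338.R2.H525 (dBits mulBits)
open Vale.Agent.P338.R2.H778 (bits)
open Vale.Agent.P338.R2.H778.FpW (PN)
open Function (update)

/-- Rulers of the batch multiplication: `g`: width of a digit; `b`: width of an element; `pd`: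
padding; `D`: number of digits; `J2 = 2 D - 1`; `J`: words of a piece; `Q2 = q - 1`; `N`, `N2`:
number of words of the present piece. -/
inductive BN
  | g | b | pd | D | J2 | J | Q2 | N | N2
  deriving DecidableEq

/-- Words of `b` bits. -/
inductive BW
  | om | nu | iv | m | mum
  | s (i : Fin 5)
  deriving DecidableEq

/-- The new files. -/
inductive NF
  | z | c | o | x | y | t | cb
  | r (k : BN)
  | w (k : BW)
  | h (i : Fin 32)
  deriving DecidableEq

instance : Finite BN := by
  let f : BN → Fin 9 := fun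
    | .g => 0
    | .b => 1
    | .pd => 2
    | .D => 3
    | .J2 => 4
    | .J => 5
    | .Q2 => 6
    | .N => 7
    | .N2 => 8
  refine Finite.of_injective f ?_
  intro a b h
  cases a <;> cases b <;> simp_all [f]

instance : Finite BW := by
  let f : BW → Fin 5 ⊕ Fin 5 := fun
    | .om => .inl 0
    | .nu => .inl 1
    | .iv => .inl 2
    | .m => .inl 3
    | .mum => .inl 4
    | .s i => .inr i
  refine Finite.of_injective f ?_
  intro a b h
  cases a <;> cases b <;> simp_all [f]

instance : Finite NF := by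
  let f : NF → (Fin 7 ⊕ BN) ⊕ (BW ⊕ Fin 32) := fun
    | .z => .inl (.inl 0)
    | .c => .inl (.inl 1)
    | .o => .inl (.inl 2)
    | .x => .inl (.inl 3)
    | .y => .inl (.inl 4)
    | .t => .inl (.inl 5)
    | .cb => .inl (.inl 6)
    | .r k => .inl (.inr k)
    | .w k => .inr (.inl k)
    | .h k => .inr (.inr k)
  refine Finite.of_injective f ?_
  intro a b h
  cases a <;> cases b <;> simp_all [f]

/-- All files; `Y` are additional files, always empty. -/
abbrev LG (T T₀ Y : Type) : Type := LF T T₀ ⊕ (NF ⊕ Y)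

/-- The contents of the new files. -/
structure BS (α : Type) where
  z : Zip α
  c : Zip α
  o : Zip α
  x : Zip α
  y : Zip α
  t : Zip α
  /-- rulers -/
  r : BN → ℕ
  /-- words -/
  w : BW → Zip α

variable {T T₀ Y α : Type} {u : α}

/-- The new files. -/
def bstN (u : α) (B : BS α) : NF → Zip α
  | .z => B.z
  | .c => B.c
  | .o => B.o
  | .x => B.x
  | .y => B.y
  | .t => B.t
  | .cb => ⟨[], []⟩
  | .r k => ru u (B.r k)
  | .w k => B.w k
  | .h _ => ⟨[], []⟩

/-- The new and the additional files. -/
def bstY (u : α) (B : BS α) : NF ⊕ Y → Zip α := Sum.elim (bstN u B) fun _ => ⟨[], []⟩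

/-- The files. -/
def z2 (u : α) (S : ZS α) (B : BS α) : LG T T₀ Y → Zip α := Sum.elim (zst u S) (bstY u B)

/-- Old files. -/
abbrev og {T T₀ Y : Type} (f : ZF) : LG T T₀ Y := .inl (lz f)

/-- New files. -/
abbrev ng {T T₀ Y : Type} (f : NF) : LG T T₀ Y := .inr (.inl f)

section upd

variable [DecidableEq (LG T T₀ Y)] {S : ZS α} {B : BS α} {x : Zip α}

theorem upd_inl [DecidableEq (LF T T₀)] (f : LF T T₀) :
    update (z2 (T := T) (T₀ := T₀) (Y := Y) u S B) (.inl f) x =
      Sum.elim (update (zst u S) f x) (bstY u B) := by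
  funext g
  by_cases hg : g = .inl f
  · subst hg
    simp
  · rw [Function.update_of_ne hg]
    rcases g with g | g
    · have : g ≠ f := fun h => hg (by rw [h])
      simp [z2, Function.update_of_ne this]
    · rfl

theorem upd_inr (f : NF) : update (z2 (T := T) (T₀ := T₀) (Y := Y) u S B) (ng f) x =
    Sum.elim (zst u S) (Sum.elim (update (bstN u B) f x) fun _ => ⟨[], []⟩) := by
  funext g
  by_cases hg : g = ng f
  · subst hg
    simp [ng]
  · rw [Function.update_of_ne hg]
    rcases g with g | g | g
    · rfl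
    · have : g ≠ f := fun h => hg (by rw [h])
      simp [z2, bstY, Function.update_of_ne this]
    · rfl

theorem z2_dat : update (z2 (T := T) (T₀ := T₀) (Y := Y) u S B) (og .dat) x =
    z2 u { S with dat := x } B := by
  classical
  rw [upd_inl, zst_dat]
  rfl

theorem z2_clk : update (z2 (T := T) (T₀ := T₀) (Y := Y) u S B) (og .clk) x =
    z2 u { S with clk := x } B := by
  classical
  rw [upd_inl, zst_clk]
  rfl

theorem z2_opX : update (z2 (T := T) (T₀ := T₀) (Y := Y) u S B) (og .opX) x =
    z2 u { S with opX := x } B := by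
  classical
  rw [upd_inl, zst_opX]
  rfl

theorem z2_opY : update (z2 (T := T) (T₀ := T₀) (Y := Y) u S B) (og .opY) x =
    z2 u { S with opY := x } B := by
  classical
  rw [upd_inl, zst_opY]
  rfl

theorem z2_res : update (z2 (T := T) (T₀ := T₀) (Y := Y) u S B) (og .res) x =
    z2 u { S with res := x } B := by
  classical
  rw [upd_inl, zst_res]
  rfl

theorem z2_z : update (z2 (T := T) (T₀ := T₀) (Y := Y) u S B) (ng .z) x =
    z2 u S { B with z := x } := by
  rw [upd_inr]
  refine congrArg (Sum.elim _) (congrArg (fun a => Sum.elim a _) ?_)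
  funext f
  cases f <;> simp [bstN, Function.update]

theorem z2_c : update (z2 (T := T) (T₀ := T₀) (Y := Y) u S B) (ng .c) x =
    z2 u S { B with c := x } := by
  rw [upd_inr]
  refine congrArg (Sum.elim _) (congrArg (fun a => Sum.elim a _) ?_)
  funext f
  cases f <;> simp [bstN, Function.update]

theorem z2_o : update (z2 (T := T) (T₀ := T₀) (Y := Y) u S B) (ng .o) x =
    z2 u S { B with o := x } := by
  rw [upd_inr]
  refine congrArg (Sum.elim _) (congrArg (fun a => Sum.elim a _) ?_)
  funext f
  cases f <;> simp [bstN, Function.update]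

theorem z2_x : update (z2 (T := T) (T₀ := T₀) (Y := Y) u S B) (ng .x) x =
    z2 u S { B with x := x } := by
  rw [upd_inr]
  refine congrArg (Sum.elim _) (congrArg (fun a => Sum.elim a _) ?_)
  funext f
  cases f <;> simp [bstN, Function.update]

theorem z2_y : update (z2 (T := T) (T₀ := T₀) (Y := Y) u S B) (ng .y) x =
    z2 u S { B with y := x } := by
  rw [upd_inr]
  refine congrArg (Sum.elim _) (congrArg (fun a => Sum.elim a _) ?_)
  funext f
  cases f <;> simp [bstN, Function.update]

theorem z2_t : update (z2 (T := T) (T₀ := T₀) (Y := Y) u S B) (ng .t) x =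
    z2 u S { B with t := x } := by
  rw [upd_inr]
  refine congrArg (Sum.elim _) (congrArg (fun a => Sum.elim a _) ?_)
  funext f
  cases f <;> simp [bstN, Function.update]

theorem z2_r (k : BN) (n : ℕ) : update (z2 (T := T) (T₀ := T₀) (Y := Y) u S B) (ng (.r k)) (ru u n) =
    z2 u S { B with r := update B.r k n } := by
  rw [upd_inr]
  refine congrArg (Sum.elim _) (congrArg (fun a => Sum.elim a _) ?_)
  funext f
  by_cases hf : f = .r k
  · subst hf
    simp [bstN]
  · rw [Function.update_of_ne hf]
    cases f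
    case r k' =>
      have h : k' ≠ k := fun h => hf (by rw [h])
      simp [bstN, Function.update_of_ne h]
    all_goals rfl

theorem z2_w (k : BW) : update (z2 (T := T) (T₀ := T₀) (Y := Y) u S B) (ng (.w k)) x =
    z2 u S { B with w := update B.w k x } := by
  rw [upd_inr]
  refine congrArg (Sum.elim _) (congrArg (fun a => Sum.elim a _) ?_)
  funext f
  by_cases hf : f = .w k
  · subst hf
    simp [bstN]
  · rw [Function.update_of_ne hf]
    cases f
    case w k' =>
      have h : k' ≠ k := fun h => hf (by rw [h])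
      simp [bstN, Function.update_of_ne h]
    all_goals rfl

omit [DecidableEq (LG T T₀ Y)] in
/-- A program on the old files. -/
theorem run_old [DecidableEq (LF T T₀)] [DecidableEq (LG T T₀ Y)] {M : Type} {d : α}
    {p : Prog M (LF T T₀) α} {m m' : M}
    {S S' : ZS α} {c : ℕ} (h : Prog.Run d p ⟨m, zst u S⟩ c ⟨m', zst u S'⟩) (B : BS α) :
    Prog.Run d (p.map (Lens.idL M) (Sum.inl : LF T T₀ → LG T T₀ Y)) ⟨m, z2 u S B⟩ c
      ⟨m', z2 u S' B⟩ := by
  have h1 := h.map (L := Lens.idL M) (ι := (Sum.inl : LF T T₀ → LG T T₀ Y)) Sum.inl_injective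
    (S := ⟨m, z2 u S B⟩) (by
      simp only [Store.pull, Lens.idL, Store.mk.injEq, true_and]
      funext g
      rfl)
  have h2 : Store.put (Lens.idL M) (Sum.inl : LF T T₀ → LG T T₀ Y)
      (⟨m, z2 u S B⟩ : Store M (LG T T₀ Y) α) ⟨m', zst u S'⟩ = ⟨m', z2 u S' B⟩ := by
    simp only [Store.put, Lens.idL, Store.mk.injEq, true_and]
    funext g
    rcases g with g | g
    · rw [Sum.inl_injective.extend_apply]
      rfl
    · rw [Function.extend_apply' _ _ _ (by simp)]
      rfl
  rw [h2] at h1
  exact h1

end upd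

end Vale.Agent.P338.R2.H784.Bp
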