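import Vale.Agent.P338.R2.H784.Bp.Ops

/-!
P338, stage 3: the interfaces of the parts of the assembly.
-/

namespace Vale.Agent.P338.R2.H784.Bp

open Vale.Agent.P338.R2.H898
open Vale.Agent.P338.R2.H968
open Vale.Agent.P338.R2.H784
open Vale.Agent.P338.R2.H784.Fp
open Vale.Agent.P338.R2.H968.CallEnv (mem0 callC)
open Vale.Agent.P338.R2.H525 (dBits mulBits slotAt zeros)
open Vale.Agent.P338.R2.H525.Fp (sPar hPar dimR)
open Vale.Agent.P338.R2.H778 (bits)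
open Vale.Agent.P338.R2.H778.FpW (PN vI vA vB)
open Function (update)

variable {A A₀ : MTM} {Y : Type} [DecidableEq (LG A.Tape A₀.Tape Y)]

/-- The multiplication files are empty. -/
structure Rest (A A₀ : MTM) (S : ZS (Al A A₀)) : Prop where
  opX : S.opX = ⟨[], []⟩
  opY : S.opY = ⟨[], []⟩
  res : S.res = ⟨[], []⟩
  clk : S.clk = ⟨[], []⟩

/-- A piece: `x`, `y` padded words; the result is in `x`. -/
def PieceOK (pc : PG A A₀ Y) (c : ℕ) (τ : ℕ → ℕ) : Prop :=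
  ∀ {W n q om nu iv N p μ : ℕ} {S : ZS (Al A A₀)} {B : BS (Al A A₀)} {x y : ℕ → ℕ},
    InPc A A₀ W n q om nu iv N S B → Rest A A₀ S → p < 2 ^ W → μ < 2 ^ W →
    S.w .p = bw A A₀ (bits W p) → S.w .mu = bw A A₀ (bits W μ) →
    (∀ i < N, x i < 2 ^ W) → (∀ i < N, y i < 2 ^ W) →
    B.x = bw A A₀ (padW (padB W) W N x) → B.y = bw A A₀ (padW (padB W) W N y) →
    B.t = ⟨[], []⟩ →
    Prog.Run (dd A A₀) pc (st2 Y S B) (c * (mulTime A n + n + N * W * τ W))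
      (st2 Y S { B with
        x := bw A A₀ (H778.slots W N fun i => H525.Fp.mmN W p μ (x i) (y i))
        y := ⟨[], []⟩ })

/-- The new files between the uses of the batch multiplication. -/
def bZ (A A₀ : MTM) (W n q om nu iv : ℕ) (z c o t : Zip (Al A A₀)) : BS (Al A A₀) :=
  ⟨z, c, o, ⟨[], []⟩, ⟨[], []⟩, t, rV W n q 0, wV A A₀ W q om nu iv⟩

/-- A long file: `T` words in `z` and in `c`; the result is in `o`. -/
def LongOK (lg : PG A A₀ Y) (c : ℕ) (τ : ℕ → ℕ) : Prop :=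
  ∀ {W n q om nu iv T p μ : ℕ} {S : ZS (Al A A₀)} {x y : List Bool},
    Prm W q om nu iv → S.n = n → S.r .wd = W → 800 * W ≤ n → 1 ≤ T → T * W ≤ n →
    Rest A A₀ S → p < 2 ^ W → μ < 2 ^ W →
    S.w .p = bw A A₀ (bits W p) → S.w .mu = bw A A₀ (bits W μ) →
    x.length = T * W → y.length = T * W →
    Prog.Run (dd A A₀) lg
      (st2 Y S (bZ A A₀ W n q om nu iv (bw A A₀ x) (bw A A₀ y) ⟨[], []⟩ ⟨[], []⟩))
      (c * (mulTime A n + n + T * W * τ W))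
      (st2 Y S (bZ A A₀ W n q om nu iv ⟨[], []⟩ ⟨[], []⟩
        (bw A A₀ (longB W q om nu iv n (jB W n) p μ T x y 800 0)) ⟨[], []⟩))

/-- A round. -/
def RoundOK (rd : PG A A₀ Y) (c : ℕ) (τ : ℕ → ℕ) : Prop :=
  ∀ {l W h n p w q om nu iv : ℕ} (M : ℕ → ℕ → Bool),
    Prm W q om nu iv → W ≤ l → hPar W + sPar W ≤ h → h ≤ l → p.Prime →
    2 * 2 ^ sPar W < p → p ≤ 4 * 2 ^ sPar W → orderOf (w : ZMod p) = p - 1 → w < p →
    576 * 4 ^ l ≤ n →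
    Prog.Run (dd A A₀) rd
      (st2 Y (sA l W h n p w (bw A A₀ (dBits l h M)))
        (bZ A A₀ W n q om nu iv ⟨[], []⟩ ⟨[], []⟩ ⟨[], []⟩ ⟨[], []⟩))
      (c * (mulTime A n + n + 4 ^ l * τ W))
      (st2 Y (sA l W (h - sPar W) n p w (bw A A₀ (dBits l (h - sPar W) M)))
        (bZ A A₀ W n q om nu iv ⟨[], []⟩ ⟨[], []⟩ ⟨[], []⟩ ⟨[], []⟩))

/-- All new files are empty. -/
def bN (A A₀ : MTM) : BS (Al A A₀) :=
  ⟨⟨[], []⟩, ⟨[], []⟩, ⟨[], []⟩, ⟨[], []⟩, ⟨[], []⟩, ⟨[], []⟩, fun _ => 0, fun _ => ⟨[], []⟩⟩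

/-- Computation of the parameters. -/
def ParOK (pr : PG A A₀ Y) (c : ℕ) : Prop :=
  ∀ {W : ℕ} {S : ZS (Al A A₀)}, 1024 ≤ W → S.r .wd = W → 576 * 4 ^ W ≤ S.n →
    ∃ q om nu iv, Prm W q om nu iv ∧
      Prog.Run (dd A A₀) pr (st2 Y S (bN A A₀)) (c * (4 ^ W + S.n))
        (st2 Y S (bZ A A₀ W S.n q om nu iv ⟨[], []⟩ ⟨[], []⟩ ⟨[], []⟩ ⟨[], []⟩))

/-- Emptying the parameters. -/
def UnparOK (pr : PG A A₀ Y) (c : ℕ) : Prop :=
  ∀ {W n q om nu iv : ℕ} {S : ZS (Al A A₀)},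
      Prog.Run (dd A A₀) pr
        (st2 Y S (bZ A A₀ W n q om nu iv ⟨[], []⟩ ⟨[], []⟩ ⟨[], []⟩ ⟨[], []⟩)) c
        (st2 Y S (bN A A₀))

end Vale.Agent.P338.R2.H784.Bp
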