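import Vale.Agent.P338.R2.H784.Bp.Files2
import Vale.Agent.P338.R2.H784.Bp.Elt

/-!
P338, stage 3: the element passes on the common files.
-/

namespace Vale.Agent.P338.R2.H784.Bp

open Vale.Agent.P338.R2.H898
open Vale.Agent.P338.R2.H968
open Vale.Agent.P338.R2.H784
open Vale.Agent.P338.R2.H784.Fp
open Vale.Agent.P338.R2.H968.CallEnv (mem0 callC)
open Vale.Agent.P338.R2.H525 (dBits mulBits)
open Vale.Agent.P338.R2.H778 (bits)
open Vale.Agent.P338.R2.H778.FpW (PN)
open Function (update)

/-- The data files. -/
def dg {T T₀ Y : Type} : LG T T₀ Y → Bool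
  | .inl (.inr (.inr f)) => dz f
  | .inr (.inl .z) => true
  | .inr (.inl .c) => true
  | .inr (.inl .o) => true
  | .inr (.inl .x) => true
  | .inr (.inl .y) => true
  | .inr (.inl .t) => true
  | _ => false

/-- The rulers and the words of the two transforms (`true`: forward). -/
def rP : Bool → BN
  | true => .D
  | false => .Q2
def rR : Bool → BN
  | true => .Q2
  | false => .J2
def wR : Bool → BW
  | true => .om
  | false => .nu
def wI : Bool → BW
  | true => .nu
  | false => .om

/-- The files of an element pass. -/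
def ie (T T₀ Y : Type) (fi fo : LG T T₀ Y) (f : Bool) : WF ER EV T₀ → LG T T₀ Y
  | .inp => fi
  | .out => fo
  | .rul .P => ng (.r (rP f))
  | .rul .R => ng (.r (rR f))
  | .rul .N => ng (.r .N)
  | .reg .r => ng (.w (wR f))
  | .reg .ri => ng (.w (wI f))
  | .reg .iv => ng (.w .iv)
  | .reg .x => ng (.w (.s 0))
  | .reg .y => ng (.w (.s 1))
  | .reg .c => ng (.w (.s 2))
  | .reg .s => ng (.w (.s 3))
  | .reg .o => ng (.w (.s 4))
  | .wid => ng (.r .b)
  | .wp => ng (.w .m)
  | .wmu => ng (.w .mum)
  | .wl => ng (.r .g)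
  | .call (.inl i) => .inl (.inr (.inl i))
  | .call (.inr k) => og (.c k)

theorem ie_data {T T₀ Y : Type} {fi fo : LG T T₀ Y} {f : Bool} (g : WF ER EV T₀) (h1 : g ≠ .inp)
    (h2 : g ≠ .out) : dg (ie T T₀ Y fi fo f g) = false := by
  rcases g with _ | _ | r | i | _ | _ | _ | _ | (i | k)
  · exact absurd rfl h1
  · exact absurd rfl h2
  · cases r <;> rfl
  · cases i <;> rfl
  all_goals rfl

theorem ie_inj {T T₀ Y : Type} {fi fo : LG T T₀ Y} {f : Bool} (h1 : dg fi = true)
    (h2 : dg fo = true) (h3 : fi ≠ fo) : Function.Injective (ie T T₀ Y fi fo f) := by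
  intro a b hab
  by_cases ha1 : a = .inp
  · subst ha1
    by_cases hb1 : b = .inp
    · exact hb1.symm
    · by_cases hb2 : b = .out
      · subst hb2
        exact absurd hab h3
      · have := ie_data (fi := fi) (fo := fo) (f := f) b hb1 hb2
        rw [← hab] at this
        rw [show ie T T₀ Y fi fo f .inp = fi from rfl, h1] at this
        exact absurd this (by simp)
  by_cases ha2 : a = .out
  · subst ha2
    by_cases hb1 : b = .inp
    · subst hb1
      exact absurd hab.symm h3
    · by_cases hb2 : b = .out
      · exact hb2.symm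
      · have := ie_data (fi := fi) (fo := fo) (f := f) b hb1 hb2
        rw [← hab] at this
        rw [show ie T T₀ Y fi fo f .out = fo from rfl, h2] at this
        exact absurd this (by simp)
  have had := ie_data (fi := fi) (fo := fo) (f := f) a ha1 ha2
  rw [hab] at had
  have hb1 : b ≠ .inp := by
    rintro rfl
    rw [show ie T T₀ Y fi fo f .inp = fi from rfl, h1] at had
    exact absurd had (by simp)
  have hb2 : b ≠ .out := by
    rintro rfl
    rw [show ie T T₀ Y fi fo f .out = fo from rfl, h2] at had
    exact absurd had (by simp)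
  rcases a with _ | _ | r | i | _ | _ | _ | _ | (i | k) <;>
    rcases b with _ | _ | r' | i' | _ | _ | _ | _ | (i' | k') <;>
    (try cases r) <;> (try cases i) <;> (try cases r') <;> (try cases i') <;> cases f <;>
    simp_all [ie, rP, rR, wR, wI, lz]

end Vale.Agent.P338.R2.H784.Bp
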